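import Mathlib

/-!
# P015S: the Dirichlet sum over primes `≡ 1 mod 4`
-/

namespace Vale.Agent.P015S

open Filter Topology

/-- the terms `log p / p ^ (1 + σ)`, `p ≡ 1 mod 4` prime -/
noncomputable def gt (σ : ℝ) (p : ℕ) : ℝ :=
  if p.Prime ∧ p % 4 = 1 then Real.log p / (p : ℝ) ^ (1 + σ) else 0

open ArithmeticFunction.vonMangoldt LSeries Complex in
private lemma A_H {x : ℝ} (hx : 1 < x) :
    ∑' n, residueClass (1 : ZMod 4) n / (n : ℝ) ^ x =
      (LFunctionResidueClassAux (1 : ZMod 4) x).re + ((4 : ℕ).totient : ℝ)⁻¹ / (x - 1) := by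
  have ha : IsUnit (1 : ZMod 4) := isUnit_one
  refine ofReal_injective ?_
  simp only [ofReal_tsum, ofReal_div, ofReal_cpow (Nat.cast_nonneg _), ofReal_natCast,
    ofReal_add, ofReal_inv, ofReal_sub, ofReal_one]
  simp_rw [← LFunctionResidueClassAux_real ha hx,
    eqOn_LFunctionResidueClassAux ha <| Set.mem_ofPred.mpr (ofReal_re x ▸ hx), sub_add_cancel,
    LSeries, term]
  refine tsum_congr fun n ↦ ?_
  split_ifs with hn
  · simp only [hn, residueClass_apply_zero, ofReal_zero, zero_div]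
  · rfl

open ArithmeticFunction.vonMangoldt LSeries Complex in
private lemma A_upper : ∃ C : ℝ, 0 ≤ C ∧ ∀ x : ℝ, 1 < x → x ≤ 2 →
    ∑' n, residueClass (1 : ZMod 4) n / (n : ℝ) ^ x ≤ C + 1 / (2 * (x - 1)) := by
  have : ContinuousOn (fun x : ℝ ↦ (LFunctionResidueClassAux (1 : ZMod 4) x).re)
      (Set.Icc 1 2) :=
    continuous_re.continuousOn.comp (t := Set.univ)
      (continuousOn_LFunctionResidueClassAux (1 : ZMod 4))
      (fun ⦃x⦄ a ↦ trivial) |>.comp continuous_ofReal.continuousOn fun x hx ↦ by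
        simpa only [Set.mem_ofPred_eq, ofReal_re] using hx.1
  obtain ⟨C, hC⟩ := bddAbove_def.mp <| IsCompact.bddAbove_image isCompact_Icc this
  refine ⟨max C 0, le_max_right _ _, fun x hx1 hx2 => ?_⟩
  have h1 : (LFunctionResidueClassAux (1 : ZMod 4) x).re ≤ C :=
    hC _ (Set.mem_image_of_mem (fun x : ℝ ↦ (LFunctionResidueClassAux (1 : ZMod 4) x).re)
      ⟨hx1.le, hx2⟩)
  rw [A_H hx1]
  have h2 : ((4 : ℕ).totient : ℝ)⁻¹ / (x - 1) = 1 / (2 * (x - 1)) := by
    have h3 : (4 : ℕ).totient = 2 := by decide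
    rw [h3]
    push_cast
    rw [← one_div, div_div]
  rw [h2]
  have := le_max_left C 0
  linarith

open ArithmeticFunction.vonMangoldt in
private lemma A_res (n : ℕ) (σ : ℝ) :
    residueClass (1 : ZMod 4) n / (n : ℝ) ^ (1 + σ) =
      gt σ n + (if n.Prime then 0 else residueClass (1 : ZMod 4) n) / (n : ℝ) ^ (1 + σ) := by
  by_cases hp : n.Prime
  · rw [if_pos hp, zero_div, add_zero]
    unfold gt
    by_cases h1 : n % 4 = 1
    · rw [if_pos ⟨hp, h1⟩]
      have h2 : (n : ZMod 4) = 1 := by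
        have h3 := (ZMod.natCast_eq_natCast_iff' n 1 4).2 h1
        rwa [Nat.cast_one] at h3
      rw [residueClass, Set.indicator_of_mem (by exact h2),
        ArithmeticFunction.vonMangoldt_apply_prime hp]
    · rw [if_neg (fun h => h1 h.2)]
      have h2 : ¬ (n : ZMod 4) = 1 := by
        intro h
        apply h1
        have h3 : ((n : ℕ) : ZMod 4) = ((1 : ℕ) : ZMod 4) := by rw [h, Nat.cast_one]
        exact (ZMod.natCast_eq_natCast_iff' n 1 4).1 h3
      rw [residueClass, Set.indicator_of_notMem (by exact h2), zero_div]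
  · rw [if_neg hp]
    unfold gt
    rw [if_neg (fun h => hp h.1), zero_add]

/-- from `ArithmeticFunction.vonMangoldt.LSeries_residueClass_lower_bound` (q = 4, a = 1) minus the
prime powers (`summable_residueClass_non_primes_div`); upper bound: `∑ Λ(n) n^(-1-σ) ≤ C/σ`, e.g.
from `LFunctionResidueClassAux_real` and continuity on `[1,2]` -/
theorem g_bounds : ∃ C : ℝ, 0 < C ∧ ∀ σ : ℝ, 0 < σ → σ ≤ 1 →
    Summable (gt σ) ∧ 1 / (2 * σ) - C ≤ ∑' p, gt σ p ∧ ∑' p, gt σ p ≤ C / σ := by
  obtain ⟨C1, hC1, hup⟩ := A_upper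
  obtain ⟨C2, hlow⟩ := ArithmeticFunction.vonMangoldt.LSeries_residueClass_lower_bound
    (q := 4) (a := 1) isUnit_one
  set f : ℕ → ℝ := fun n => (if n.Prime then 0 else
    ArithmeticFunction.vonMangoldt.residueClass (1 : ZMod 4) n) / n with hf
  have hfs : Summable f :=
    ArithmeticFunction.vonMangoldt.summable_residueClass_non_primes_div (1 : ZMod 4)
  set D : ℝ := ∑' n, f n with hD
  have hR0 : ∀ n, 0 ≤ ArithmeticFunction.vonMangoldt.residueClass (1 : ZMod 4) n :=
    ArithmeticFunction.vonMangoldt.residueClass_nonneg (1 : ZMod 4)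
  have hf0 : ∀ n, 0 ≤ (if n.Prime then 0 else
      ArithmeticFunction.vonMangoldt.residueClass (1 : ZMod 4) n) := by
    intro n
    split_ifs
    · exact le_rfl
    · exact hR0 n
  refine ⟨|C2| + |D| + C1 + 1, by positivity, fun σ hσ hσ1 => ?_⟩
  have hx1 : 1 < 1 + σ := by linarith
  have hx2 : 1 + σ ≤ 2 := by linarith
  have hgt0 : ∀ n, 0 ≤ gt σ n := by
    intro n
    unfold gt
    split_ifs
    · exact div_nonneg (Real.log_natCast_nonneg n) (Real.rpow_nonneg (Nat.cast_nonneg n) _)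
    · exact le_rfl
  have hsum : Summable fun n : ℕ =>
      ArithmeticFunction.vonMangoldt.residueClass (1 : ZMod 4) n / (n : ℝ) ^ (1 + σ) :=
    LSeries.summable_real_of_abscissaOfAbsConv_lt <|
      (ArithmeticFunction.vonMangoldt.abscissaOfAbsConv_residueClass_le_one
        (1 : ZMod 4)).trans_lt <| mod_cast hx1
  have hle : ∀ n, gt σ n ≤
      ArithmeticFunction.vonMangoldt.residueClass (1 : ZMod 4) n / (n : ℝ) ^ (1 + σ) := by
    intro n
    rw [A_res n σ]
    have : 0 ≤ (if n.Prime then 0 else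
        ArithmeticFunction.vonMangoldt.residueClass (1 : ZMod 4) n) / (n : ℝ) ^ (1 + σ) :=
      div_nonneg (hf0 n) (Real.rpow_nonneg (Nat.cast_nonneg n) _)
    linarith
  have hs : Summable (gt σ) := Summable.of_nonneg_of_le hgt0 hle hsum
  refine ⟨hs, ?_, ?_⟩
  · have h1 : 1 / (2 * σ) - C2 ≤ ∑' n : ℕ,
        ArithmeticFunction.vonMangoldt.residueClass (1 : ZMod 4) n / (n : ℝ) ^ (1 + σ) := by
      have h2 := hlow (x := 1 + σ) ⟨hx1, hx2⟩
      have h3 : ((4 : ℕ).totient : ℝ)⁻¹ / (1 + σ - 1) = 1 / (2 * σ) := by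
        have h4 : (4 : ℕ).totient = 2 := by decide
        rw [h4, add_sub_cancel_left]
        push_cast
        rw [← one_div, div_div]
      rw [h3] at h2
      exact h2
    have h2 : ∑' n : ℕ,
        ArithmeticFunction.vonMangoldt.residueClass (1 : ZMod 4) n / (n : ℝ) ^ (1 + σ) ≤
        ∑' n, (gt σ n + f n) := by
      refine Summable.tsum_le_tsum (fun n => ?_) hsum (hs.add hfs)
      rw [A_res n σ]
      refine add_le_add le_rfl ?_
      rcases n.eq_zero_or_pos with rfl | hn
      · simp [hf]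
      · refine div_le_div_of_nonneg_left (hf0 n) (mod_cast hn) ?_
        conv_lhs => rw [← Real.rpow_one (n : ℝ)]
        exact Real.rpow_le_rpow_of_exponent_le (by exact_mod_cast hn) hx1.le
    rw [hs.tsum_add hfs] at h2
    have h3 := le_abs_self C2
    have h4 := le_abs_self D
    linarith
  · have h1 : ∑' p, gt σ p ≤ C1 + 1 / (2 * σ) := by
      refine (hs.tsum_le_tsum hle hsum).trans ?_
      have h2 := hup (1 + σ) hx1 hx2
      rwa [add_sub_cancel_left] at h2
    refine h1.trans ?_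
    rw [le_div_iff₀ hσ, add_mul]
    have h2 : 1 / (2 * σ) * σ = 1 / 2 := by field_simp
    rw [h2]
    have h3 : C1 * σ ≤ C1 := mul_le_of_le_one_right hC1 hσ1
    have h4 := abs_nonneg C2
    have h5 := abs_nonneg D
    linarith

end Vale.Agent.P015S
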