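import Vale.Agent.Lib.P015S.A

/-!
# P015S: Mertens type lower bound

Proof: `σ_j = 2 ^ (-j)`; `p^(-1) (p^(-σ_(j+1)) - p^(-σ_j)) ≥ (σ_j - σ_(j+1)) log p p^(-1-σ_j)`, so
summing over `J` values of `j` between `σ = 1/(δ log y)` and `σ = 1/log y` gives
`∑_p p^(-1) (p^(-σ₁) - p^(-σ₂)) ≥ J/4 - C`, with `σ₁ ≈ 1/log y`, `σ₂ ≈ 1/(δ log y)`,
`J ≈ log₂(1/δ)`.  The part `p ≤ y^δ` is at most `σ₂ ∑_{p ≤ y^δ} log p/p ≤ C'` and the part
`p > y` is at most `(1/log y) ∑ log p p^(-1-σ₁) ≤ C'` by the upper bound of `g_bounds`.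
-/

namespace Vale.Agent.P015S

open Filter Topology

private lemma B_gt_eq (σ : ℝ) (p : ℕ) (hp : p.Prime ∧ p % 4 = 1) :
    gt σ p = Real.log p / p * Real.exp (-(σ * Real.log p)) := by
  unfold gt
  have h0 : (0 : ℝ) < p := by exact_mod_cast hp.1.pos
  rw [if_pos hp, Real.rpow_add h0, Real.rpow_one, Real.rpow_def_of_pos h0, Real.exp_neg,
    mul_comm (Real.log p) σ]
  field_simp

private lemma B_gt_nonneg (σ : ℝ) (p : ℕ) : 0 ≤ gt σ p := by
  unfold gt
  split_ifs with hp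
  · have h0 : (1 : ℝ) ≤ p := by exact_mod_cast hp.1.one_lt.le
    exact div_nonneg (Real.log_nonneg h0) (Real.rpow_nonneg (by linarith) _)
  · exact le_rfl

private lemma B_step (u : ℝ) : u * Real.exp (-(2 * u)) ≤ Real.exp (-u) - Real.exp (-(2 * u)) := by
  have h1 : Real.exp (-u) = Real.exp (-(2 * u)) * Real.exp u := by
    rw [← Real.exp_add]
    congr 1
    ring
  have h2 := Real.add_one_le_exp u
  have h3 := Real.exp_pos (-(2 * u))
  rw [h1]
  nlinarith

private lemma B_tele (c : ℝ) (J : ℕ) :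
    ∑ j ∈ Finset.range J, (2 ^ j * c) * Real.exp (-(2 ^ (j + 1) * c)) ≤
      Real.exp (-c) - Real.exp (-(2 ^ J * c)) := by
  induction J with
  | zero => simp
  | succ J ih =>
    rw [Finset.sum_range_succ]
    have h1 := B_step (2 ^ J * c)
    have h2 : (2 : ℝ) ^ (J + 1) * c = 2 * (2 ^ J * c) := by ring
    rw [h2]
    linarith

theorem mert (K : ℝ) : ∃ δ : ℝ, 0 < δ ∧ δ < 1 ∧ ∃ y₀ : ℝ, ∀ y : ℝ, y₀ ≤ y →
    K ≤ ∑ p ∈ (Finset.range (⌊y⌋₊ + 1)).filter
      (fun p : ℕ => p.Prime ∧ p % 4 = 1 ∧ y ^ δ < (p : ℝ)), 1 / (p : ℝ) := by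
  obtain ⟨C, hC, hg⟩ := g_bounds
  obtain ⟨J₀, hJ₀⟩ := exists_nat_ge (4 * (K + 1 + Real.exp 1 * C + C))
  set J : ℕ := J₀ + 1 with hJdef
  have hJ : K + 1 + Real.exp 1 * C + C ≤ (J : ℝ) / 4 := by
    rw [hJdef]
    push_cast
    linarith
  have h2J : (0 : ℝ) < 2 ^ J := by positivity
  refine ⟨((2 : ℝ) ^ J)⁻¹, by positivity, ?_, Real.exp (2 ^ J * (1 + J * C)), ?_⟩
  · refine inv_lt_one_of_one_lt₀ ?_
    exact one_lt_pow₀ (by norm_num) (by omega)
  intro y hy
  have hy0 : 0 < y := (Real.exp_pos _).trans_le hy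
  set Y : ℝ := Real.log y with hY
  have hYge : 2 ^ J * (1 + J * C) ≤ Y := by
    rw [hY]
    exact (Real.le_log_iff_exp_le hy0).2 hy
  have hJC : 0 ≤ (J : ℝ) * C := by positivity
  have hY1 : 2 ^ J ≤ Y := by nlinarith
  have hY2 : 2 ^ J * (J * C) ≤ Y := by nlinarith
  have hY0 : 0 < Y := h2J.trans_le hY1
  have hσpos : ∀ j : ℕ, (0 : ℝ) < 2 ^ j / Y := fun j => by positivity
  have hσle : ∀ j : ℕ, j ≤ J → (2 : ℝ) ^ j / Y ≤ 1 := fun j hj => by
    rw [div_le_one hY0]
    exact (pow_le_pow_right₀ (by norm_num) hj).trans hY1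
  set S := (Finset.range (⌊y⌋₊ + 1)).filter
      (fun p : ℕ => p.Prime ∧ p % 4 = 1 ∧ y ^ ((2 : ℝ) ^ J)⁻¹ < (p : ℝ)) with hS
  -- pointwise inequality
  have hpt : ∀ p : ℕ, ∑ j ∈ Finset.range J, (2 ^ j / Y) * gt (2 ^ (j + 1) / Y) p ≤
      (if p ∈ S then 1 / (p : ℝ) else 0) +
        (Real.exp 1 * (2 ^ J / Y)) * gt (2 ^ J / Y) p + (2 ^ 0 / Y) * gt (2 ^ 0 / Y) p := by
    intro p
    by_cases hp : p.Prime ∧ p % 4 = 1
    · have hp0 : (0 : ℝ) < p := by exact_mod_cast hp.1.pos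
      have hp1 : (1 : ℝ) ≤ p := by exact_mod_cast hp.1.one_lt.le
      set L : ℝ := Real.log p with hL
      have hL0 : 0 ≤ L := Real.log_nonneg hp1
      have hLp : 0 ≤ 1 / (p : ℝ) := by positivity
      have e1 : ∑ j ∈ Finset.range J, (2 ^ j / Y) * gt (2 ^ (j + 1) / Y) p =
          1 / (p : ℝ) * ∑ j ∈ Finset.range J,
            (2 ^ j * (L / Y)) * Real.exp (-(2 ^ (j + 1) * (L / Y))) := by
        rw [Finset.mul_sum]
        refine Finset.sum_congr rfl fun j _ => ?_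
        rw [B_gt_eq _ p hp]
        rw [show (2 : ℝ) ^ (j + 1) / Y * Real.log p = 2 ^ (j + 1) * (L / Y) by rw [hL]; ring]
        rw [← hL]
        ring
      have e2 := mul_le_mul_of_nonneg_left (B_tele (L / Y) J) hLp
      rw [e1]
      refine e2.trans ?_
      have g1 : gt (2 ^ J / Y) p = L / p * Real.exp (-(2 ^ J * (L / Y))) := by
        rw [B_gt_eq _ p hp, ← hL]
        congr 2
        ring
      have g0 : gt (2 ^ 0 / Y) p = L / p * Real.exp (-(L / Y)) := by
        rw [B_gt_eq _ p hp, ← hL]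
        congr 2
        rw [pow_zero]
        ring
      rw [g1, g0]
      have x1 : 0 ≤ Real.exp (-(L / Y)) := (Real.exp_pos _).le
      have x2 : 0 ≤ Real.exp (-(2 ^ J * (L / Y))) := (Real.exp_pos _).le
      have hu : 0 ≤ 2 ^ J * (L / Y) := by positivity
      have hu0 : 0 ≤ L / Y := by positivity
      have t1 : 0 ≤ Real.exp 1 * (2 ^ J / Y) * (L / p * Real.exp (-(2 ^ J * (L / Y)))) := by
        positivity
      have t2 : 0 ≤ 2 ^ 0 / Y * (L / p * Real.exp (-(L / Y))) := by positivity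
      by_cases hpS : p ∈ S
      · rw [if_pos hpS]
        have : Real.exp (-(L / Y)) ≤ 1 := Real.exp_le_one_iff.2 (by linarith)
        nlinarith
      · rw [if_neg hpS, zero_add]
        rcases le_or_gt (p : ℝ) y with hle | hgt
        · have hsmall : ¬ y ^ ((2 : ℝ) ^ J)⁻¹ < (p : ℝ) := by
            intro hcon
            refine hpS ?_
            rw [hS, Finset.mem_filter, Finset.mem_range]
            exact ⟨Nat.lt_succ_of_le (Nat.le_floor hle), hp.1, hp.2, hcon⟩
          push Not at hsmall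
          have h5 : L ≤ ((2 : ℝ) ^ J)⁻¹ * Y := by
            rw [hL, hY, ← Real.log_rpow hy0]
            exact Real.log_le_log hp0 hsmall
          have h6 : 2 ^ J * (L / Y) ≤ 1 := by
            rw [mul_div_assoc', div_le_one hY0]
            calc 2 ^ J * L ≤ 2 ^ J * (((2 : ℝ) ^ J)⁻¹ * Y) :=
                  mul_le_mul_of_nonneg_left h5 h2J.le
              _ = Y := by field_simp
          have h7 : 1 ≤ Real.exp 1 * Real.exp (-(2 ^ J * (L / Y))) := by
            rw [← Real.exp_add]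
            exact Real.one_le_exp (by linarith)
          have h8 : Real.exp (-(L / Y)) - Real.exp (-(2 ^ J * (L / Y))) ≤ 2 ^ J * (L / Y) := by
            have := Real.add_one_le_exp (-(2 ^ J * (L / Y)))
            have h9 : Real.exp (-(L / Y)) ≤ 1 := Real.exp_le_one_iff.2 (by linarith)
            linarith
          have h9 : 2 ^ J * (L / Y) ≤ 2 ^ J * (L / Y) *
              (Real.exp 1 * Real.exp (-(2 ^ J * (L / Y)))) := le_mul_of_one_le_right hu h7
          have h10 := mul_le_mul_of_nonneg_left (h8.trans h9) hLp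
          have h11 : 1 / (p : ℝ) * (2 ^ J * (L / Y) *
              (Real.exp 1 * Real.exp (-(2 ^ J * (L / Y))))) =
              Real.exp 1 * (2 ^ J / Y) * (L / p * Real.exp (-(2 ^ J * (L / Y)))) := by ring
          rw [h11] at h10
          linarith
        · have h5 : Y ≤ L := by
            rw [hL, hY]
            exact Real.log_le_log hy0 hgt.le
          have h6 : 1 ≤ L / Y := (one_le_div hY0).2 h5
          have h8 : Real.exp (-(L / Y)) ≤ L / Y * Real.exp (-(L / Y)) :=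
            le_mul_of_one_le_left x1 h6
          have h10 := mul_le_mul_of_nonneg_left h8 hLp
          have h11 : 1 / (p : ℝ) * (L / Y * Real.exp (-(L / Y))) =
              2 ^ 0 / Y * (L / p * Real.exp (-(L / Y))) := by
            rw [pow_zero]
            ring
          rw [h11] at h10
          have h12 : 1 / (p : ℝ) * (Real.exp (-(L / Y)) - Real.exp (-(2 ^ J * (L / Y)))) ≤
              1 / (p : ℝ) * Real.exp (-(L / Y)) :=
            mul_le_mul_of_nonneg_left (by linarith) hLp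
          linarith
    · have hz : ∀ σ : ℝ, gt σ p = 0 := fun σ => by
        unfold gt
        rw [if_neg hp]
      have h1 : 0 ≤ (if p ∈ S then 1 / (p : ℝ) else 0) := by
        split_ifs
        · positivity
        · exact le_rfl
      simp only [hz, mul_zero, Finset.sum_const_zero, add_zero]
      exact h1
  have hL1 : HasSum (fun p : ℕ => ∑ j ∈ Finset.range J, (2 ^ j / Y) * gt (2 ^ (j + 1) / Y) p)
      (∑ j ∈ Finset.range J, (2 ^ j / Y) * ∑' p, gt (2 ^ (j + 1) / Y) p) := by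
    refine hasSum_sum fun j hj => ?_
    exact ((hg _ (hσpos (j + 1)) (hσle (j + 1) (Finset.mem_range.1 hj))).1.hasSum).mul_left _
  have hR1 : HasSum (fun p : ℕ => (if p ∈ S then 1 / (p : ℝ) else 0)) (∑ p ∈ S, 1 / (p : ℝ)) := by
    have h1 : HasSum (fun p : ℕ => (if p ∈ S then 1 / (p : ℝ) else 0))
        (∑ p ∈ S, (if p ∈ S then 1 / (p : ℝ) else 0)) :=
      hasSum_sum_of_ne_finset_zero (fun b hb => if_neg hb)
    rw [Finset.sum_congr rfl fun p hp => if_pos hp] at h1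
    exact h1
  have hgJ := hg _ (hσpos J) (hσle J le_rfl)
  have hg0 := hg _ (hσpos 0) (hσle 0 (Nat.zero_le J))
  have hR := (hR1.add (hgJ.1.hasSum.mul_left (Real.exp 1 * (2 ^ J / Y)))).add
    (hg0.1.hasSum.mul_left (2 ^ 0 / Y))
  have hmain := hasSum_le hpt hL1 hR
  have hlow : (J : ℝ) / 4 - 1 ≤ ∑ j ∈ Finset.range J, (2 ^ j / Y) * ∑' p, gt (2 ^ (j + 1) / Y) p := by
    have h1 : ∀ j ∈ Finset.range J, 1 / 4 - C * (2 ^ J / Y) ≤
        (2 ^ j / Y) * ∑' p, gt (2 ^ (j + 1) / Y) p := by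
      intro j hj
      have h2 := (hg _ (hσpos (j + 1)) (hσle (j + 1) (Finset.mem_range.1 hj))).2.1
      have h3 := mul_le_mul_of_nonneg_left h2 (hσpos j).le
      have h4 : (2 : ℝ) ^ j / Y * (1 / (2 * (2 ^ (j + 1) / Y)) - C) = 1 / 4 - C * (2 ^ j / Y) := by
        have h5 : (2 : ℝ) ^ j ≠ 0 := by positivity
        rw [pow_succ]
        field_simp
        ring
      rw [h4] at h3
      have h6 : (2 : ℝ) ^ j / Y ≤ 2 ^ J / Y :=
        div_le_div_of_nonneg_right
          (pow_le_pow_right₀ (by norm_num) (Finset.mem_range.1 hj).le) hY0.le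
      have h7 := mul_le_mul_of_nonneg_left h6 hC.le
      linarith
    have h8 := Finset.sum_le_sum h1
    rw [Finset.sum_const, Finset.card_range, nsmul_eq_mul] at h8
    have h9 : (J : ℝ) * (C * (2 ^ J / Y)) ≤ 1 := by
      have h10 : (J : ℝ) * (C * (2 ^ J / Y)) = 2 ^ J * (J * C) / Y := by ring
      rw [h10, div_le_one hY0]
      exact hY2
    have h11 : (J : ℝ) * (1 / 4 - C * (2 ^ J / Y)) = J / 4 - J * (C * (2 ^ J / Y)) := by ring
    linarith
  have hup1 : Real.exp 1 * (2 ^ J / Y) * ∑' p, gt (2 ^ J / Y) p ≤ Real.exp 1 * C := by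
    have h1 := mul_le_mul_of_nonneg_left hgJ.2.2
      (show 0 ≤ Real.exp 1 * (2 ^ J / Y) by have := Real.exp_pos 1; positivity)
    have h2 : Real.exp 1 * (2 ^ J / Y) * (C / (2 ^ J / Y)) = Real.exp 1 * C := by
      have := (hσpos J).ne'
      rw [mul_assoc, mul_div_cancel₀ _ this]
    linarith
  have hup2 : 2 ^ 0 / Y * ∑' p, gt (2 ^ 0 / Y) p ≤ C := by
    have h1 := mul_le_mul_of_nonneg_left hg0.2.2 (hσpos 0).le
    have h2 : 2 ^ 0 / Y * (C / (2 ^ 0 / Y)) = C := mul_div_cancel₀ _ (hσpos 0).ne'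
    linarith
  linarith

end Vale.Agent.P015S
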