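import Mathlib

/-!
# P015S: counting integers in an interval avoiding residue classes (CRT)
-/

namespace Vale.Agent.P015S

private theorem C_period (A : Set ℤ) (p : ℕ) (hA : ∀ x : ℤ, x ∈ A ↔ x + p ∈ A) (x : ℤ) (k : ℕ) :
    x ∈ A ↔ x + k * p ∈ A := by
  induction k with
  | zero => simp
  | succ k ih =>
    rw [ih, hA (x + k * p)]
    have h1 : x + k * p + p = x + ((k + 1 : ℕ) : ℤ) * p := by
      push_cast
      ring
    rw [h1]

private theorem C_mod (A : Set ℤ) (p : ℕ) (hA : ∀ x : ℤ, x ∈ A ↔ x + p ∈ A) (x : ℤ) :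
    x ∈ A ↔ x % p ∈ A := by
  have h0 : x % p + (x / p) * p = x := Int.emod_add_ediv_mul x p
  rcases Int.eq_ofNat_of_zero_le (abs_nonneg (x / p)) with ⟨k, hk⟩
  rcases abs_choice (x / p) with h | h
  · have h1 : x / p = k := by omega
    rw [h1] at h0
    rw [C_period A p hA (x % p) k, h0]
  · have h1 : x / p = -k := by omega
    rw [h1] at h0
    have h2 : x + k * p = x % p := by linarith
    rw [C_period A p hA x k, h2]

private theorem C_window (P : Finset ℕ) (hP : ∀ p ∈ P, p.Prime) (A : ℕ → Set ℤ)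
    (hA : ∀ p ∈ P, ∀ x : ℤ, x ∈ A p ↔ x + p ∈ A p) [∀ p, DecidablePred (fun x => x ∈ A p)]
    [DecidablePred (fun x : ℤ => ∀ p ∈ P, x ∈ A p)] (b : ℤ) :
    ((Finset.Ico b (b + ((∏ p ∈ P, p : ℕ) : ℤ))).filter (fun x => ∀ p ∈ P, x ∈ A p)).card ≤
      ∏ p ∈ P, ((Finset.Ico (0 : ℤ) p).filter (fun x => x ∈ A p)).card := by
  rw [← Finset.card_pi]
  refine Finset.card_le_card_of_injOn (fun x p _ => x % p) ?_ ?_
  · intro x hx
    rw [Finset.mem_coe, Finset.mem_filter] at hx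
    rw [Finset.mem_coe, Finset.mem_pi]
    intro p hp
    have hp0 : (0 : ℤ) < p := by exact_mod_cast (hP p hp).pos
    rw [Finset.mem_filter, Finset.mem_Ico]
    exact ⟨⟨Int.emod_nonneg _ hp0.ne', Int.emod_lt_of_pos _ hp0⟩,
      (C_mod (A p) p (hA p hp) x).1 (hx.2 p hp)⟩
  · intro x hx y hy hxy
    rw [Finset.mem_coe, Finset.mem_filter, Finset.mem_Ico] at hx hy
    have h1 : ∀ p ∈ P, (p : ℤ) ∣ x - y := fun p hp => by
      have h2 : x % p = y % p := congrFun (congrFun hxy p) hp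
      have h3 : x ≡ y [ZMOD p] := h2
      exact h3.symm.dvd
    have h2 : ((∏ p ∈ P, p : ℕ) : ℤ) ∣ x - y := by
      rw [Nat.cast_prod]
      refine Finset.prod_dvd_of_coprime ?_ h1
      intro p hp q hq hpq
      change IsCoprime (p : ℤ) (q : ℤ)
      rw [Nat.isCoprime_iff_coprime]
      exact (Nat.coprime_primes (hP p hp) (hP q hq)).2 hpq
    have h3 : x - y = 0 := by
      refine Int.eq_zero_of_abs_lt_dvd h2 ?_
      rw [abs_lt]
      constructor <;> linarith [hx.1.1, hx.1.2, hy.1.1, hy.1.2]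
    linarith

/-- `A p` is a `p`-periodic set of integers with at most `p - r` elements in a period -/
theorem row_count (P : Finset ℕ) (hP : ∀ p ∈ P, p.Prime) (A : ℕ → Set ℤ)
    (hA : ∀ p ∈ P, ∀ x : ℤ, x ∈ A p ↔ x + p ∈ A p) (r : ℕ)
    (hr : ∀ p ∈ P, ({x : ℤ | 0 ≤ x ∧ x < p ∧ x ∈ A p}.ncard : ℝ) ≤ p - r)
    (a : ℤ) (L : ℕ) (hL : ∏ p ∈ P, p ≤ L) :
    ({x : ℤ | a ≤ x ∧ x < a + L ∧ ∀ p ∈ P, x ∈ A p}.ncard : ℝ) ≤
      2 * L * ∏ p ∈ P, (1 - (r : ℝ) / p) := by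
  classical
  have hQ0 : 0 < ∏ p ∈ P, p := Finset.prod_pos fun p hp => (hP p hp).pos
  have hB : ∀ p ∈ P,
      (((Finset.Ico (0 : ℤ) p).filter (fun x => x ∈ A p)).card : ℝ) ≤ p - r := by
    intro p hp
    have h1 : {x : ℤ | 0 ≤ x ∧ x < p ∧ x ∈ A p} =
        (((Finset.Ico (0 : ℤ) p).filter (fun x => x ∈ A p) : Finset ℤ) : Set ℤ) := by
      ext x
      rw [Finset.mem_coe, Finset.mem_filter, Finset.mem_Ico, and_assoc]
      rfl
    have h2 := hr p hp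
    rw [h1, Set.ncard_coe_finset] at h2
    exact h2
  have hBp : ((∏ p ∈ P, ((Finset.Ico (0 : ℤ) p).filter (fun x => x ∈ A p)).card : ℕ) : ℝ) ≤
      ∏ p ∈ P, ((p : ℝ) - r) := by
    rw [Nat.cast_prod]
    exact Finset.prod_le_prod (fun p _ => Nat.cast_nonneg _) hB
  have hprod : ∏ p ∈ P, ((p : ℝ) - r) =
      ((∏ p ∈ P, p : ℕ) : ℝ) * ∏ p ∈ P, (1 - (r : ℝ) / p) := by
    rw [Nat.cast_prod, ← Finset.prod_mul_distrib]
    refine Finset.prod_congr rfl fun p hp => ?_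
    have hp0 : (p : ℝ) ≠ 0 := by exact_mod_cast (hP p hp).pos.ne'
    field_simp
  have hnn : 0 ≤ ∏ p ∈ P, (1 - (r : ℝ) / p) := by
    refine Finset.prod_nonneg fun p hp => ?_
    have hp0 : (0 : ℝ) < p := by exact_mod_cast (hP p hp).pos
    have h1 : (0 : ℝ) ≤ p - r := (Nat.cast_nonneg _).trans (hB p hp)
    rw [sub_nonneg, div_le_one hp0]
    linarith
  set Q : ℕ := ∏ p ∈ P, p with hQ
  -- cover by windows
  have hcover : {x : ℤ | a ≤ x ∧ x < a + L ∧ ∀ p ∈ P, x ∈ A p} ⊆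
      (((Finset.range (L / Q + 1)).biUnion fun i =>
        (Finset.Ico (a + i * Q) (a + i * Q + (Q : ℤ))).filter (fun x => ∀ p ∈ P, x ∈ A p) :
          Finset ℤ) : Set ℤ) := by
    intro x hx
    obtain ⟨h1, h2, h3⟩ := hx
    rw [Finset.mem_coe, Finset.mem_biUnion]
    obtain ⟨n, hn⟩ := Int.eq_ofNat_of_zero_le (sub_nonneg.2 h1)
    have hnL : n < L := by omega
    refine ⟨n / Q, ?_, ?_⟩
    · rw [Finset.mem_range]
      exact Nat.lt_succ_of_le (Nat.div_le_div_right hnL.le)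
    · rw [Finset.mem_filter, Finset.mem_Ico]
      have h4 := Nat.div_add_mod n Q
      have h5 := Nat.mod_lt n hQ0
      have h6 : ((n / Q : ℕ) : ℤ) * Q + ((n % Q : ℕ) : ℤ) = n := by
        have h7 : (n / Q) * Q + n % Q = n := by
          rw [mul_comm]
          exact h4
        exact_mod_cast h7
      have h8 : ((n % Q : ℕ) : ℤ) < Q := by exact_mod_cast h5
      have h9 : (0 : ℤ) ≤ ((n % Q : ℕ) : ℤ) := Int.natCast_nonneg _
      refine ⟨⟨?_, ?_⟩, h3⟩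
      · linarith
      · linarith
  have h1 : {x : ℤ | a ≤ x ∧ x < a + L ∧ ∀ p ∈ P, x ∈ A p}.ncard ≤
      (L / Q + 1) * ∏ p ∈ P, ((Finset.Ico (0 : ℤ) p).filter (fun x => x ∈ A p)).card := by
    refine (Set.ncard_le_ncard hcover (Finset.finite_toSet _)).trans ?_
    rw [Set.ncard_coe_finset]
    refine (Finset.card_biUnion_le).trans ?_
    have hw : ∀ i ∈ Finset.range (L / Q + 1),
        ((Finset.Ico (a + (i : ℤ) * Q) (a + (i : ℤ) * Q + (Q : ℤ))).filter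
          (fun x => ∀ p ∈ P, x ∈ A p)).card ≤
        ∏ p ∈ P, ((Finset.Ico (0 : ℤ) p).filter (fun x => x ∈ A p)).card := fun i _ =>
      C_window P hP A hA (a + (i : ℤ) * Q)
    refine (Finset.sum_le_card_nsmul _ _ _ hw).trans ?_
    rw [Finset.card_range, smul_eq_mul]
  have h2 : ((L / Q + 1 : ℕ) : ℝ) * Q ≤ 2 * L := by
    have h3 : (L / Q) * Q ≤ L := Nat.div_mul_le_self L Q
    have h4 : (L / Q + 1) * Q ≤ 2 * L := by
      rw [add_mul, one_mul]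
      omega
    exact_mod_cast h4
  calc ({x : ℤ | a ≤ x ∧ x < a + L ∧ ∀ p ∈ P, x ∈ A p}.ncard : ℝ) ≤
      (((L / Q + 1) * ∏ p ∈ P, ((Finset.Ico (0 : ℤ) p).filter (fun x => x ∈ A p)).card : ℕ) : ℝ) :=
        by exact_mod_cast h1
    _ = ((L / Q + 1 : ℕ) : ℝ) *
        ((∏ p ∈ P, ((Finset.Ico (0 : ℤ) p).filter (fun x => x ∈ A p)).card : ℕ) : ℝ) := by
        rw [Nat.cast_mul]
    _ ≤ ((L / Q + 1 : ℕ) : ℝ) * ((Q : ℝ) * ∏ p ∈ P, (1 - (r : ℝ) / p)) :=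
        mul_le_mul_of_nonneg_left (hBp.trans hprod.le) (Nat.cast_nonneg _)
    _ = ((L / Q + 1 : ℕ) : ℝ) * Q * ∏ p ∈ P, (1 - (r : ℝ) / p) := by ring
    _ ≤ 2 * L * ∏ p ∈ P, (1 - (r : ℝ) / p) := mul_le_mul_of_nonneg_right h2 hnn

end Vale.Agent.P015S
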