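import Mathlib

/-!
# P015S: roots modulo `p`, and split primes dividing the norm of a Gaussian prime
-/

namespace Vale.Agent.P015S

/-- on the row `im = k`, the points `x + k i` with no `x + k i + w`, `w ∈ W`, of norm divisible by
`p`: at most `p - |W|` residues (`x ≡ - w.re - ι (k + w.im)`, `ι² = -1` in `ZMod p`, are distinct
forbidden residues) -/
theorem roots {p : ℕ} (hp : p.Prime) (hp4 : p % 4 = 1) (W : Finset GaussianInt)
    (hW : ∀ v ∈ W, ∀ w ∈ W, v ≠ w → (v - w).norm < p) (k : ℤ) :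
    ({x : ℤ | 0 ≤ x ∧ x < p ∧ ∀ w ∈ W, ¬ (p : ℤ) ∣ ((⟨x, k⟩ : GaussianInt) + w).norm}.ncard : ℝ) ≤
      p - W.card := by
  classical
  have : Fact p.Prime := ⟨hp⟩
  obtain ⟨ι, hι⟩ : IsSquare (-1 : ZMod p) := ZMod.exists_sq_eq_neg_one_iff.2 (by omega)
  let f : GaussianInt → ZMod p := fun w => -(w.re : ZMod p) - ι * ((k : ZMod p) + (w.im : ZMod p))
  have hnorm : ∀ z : GaussianInt, ((z.norm : ℤ) : ZMod p) =
      (z.re : ZMod p) * z.re + (z.im : ZMod p) * z.im := by
    intro z
    rw [Zsqrtd.norm_def]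
    push_cast
    ring
  have hinj : Set.InjOn f (W : Set GaussianInt) := by
    intro v hv w hw hvw
    by_contra hne
    have h1 := hW v hv w hw hne
    have h0 : 0 ≤ (v - w).norm := GaussianInt.norm_nonneg _
    have h2 : ((v - w).norm : ℤ) ≠ 0 := by
      intro h
      have := (GaussianInt.norm_eq_zero (x := v - w)).1 h
      exact hne (sub_eq_zero.1 this)
    have h3 : (((v - w).norm : ℤ) : ZMod p) = 0 := by
      rw [hnorm, Zsqrtd.re_sub, Zsqrtd.im_sub]
      push_cast
      have h4 : (v.re : ZMod p) - w.re = -ι * ((v.im : ZMod p) - w.im) := by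
        have h5 : -(v.re : ZMod p) - ι * ((k : ZMod p) + (v.im : ZMod p)) =
          -(w.re : ZMod p) - ι * ((k : ZMod p) + (w.im : ZMod p)) := hvw
        linear_combination -h5
      rw [h4]
      linear_combination (-((v.im : ZMod p) - w.im) * ((v.im : ZMod p) - w.im)) * hι
    have h4 : (p : ℤ) ∣ (v - w).norm := (ZMod.intCast_zmod_eq_zero_iff_dvd _ p).1 h3
    have h5 := Int.le_of_dvd (lt_of_le_of_ne h0 (Ne.symm h2)) h4
    omega
  set F : Finset (ZMod p) := W.image f with hF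
  have hFc : F.card = W.card := Finset.card_image_of_injOn hinj
  have hFp : F.card ≤ p := by
    have := Finset.card_le_univ F
    rwa [ZMod.card] at this
  have hc : ((Fᶜ : Finset (ZMod p)) : Set (ZMod p)).ncard = p - W.card := by
    rw [Set.ncard_coe_finset, Finset.card_compl, ZMod.card, hFc]
  have h1 : {x : ℤ | 0 ≤ x ∧ x < p ∧
      ∀ w ∈ W, ¬ (p : ℤ) ∣ ((⟨x, k⟩ : GaussianInt) + w).norm}.ncard ≤
      ((Fᶜ : Finset (ZMod p)) : Set (ZMod p)).ncard := by
    refine Set.ncard_le_ncard_of_injOn (fun x : ℤ => (x : ZMod p)) ?_ ?_ (Finset.finite_toSet _)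
    · rintro x ⟨-, -, hx⟩
      rw [Finset.mem_coe, Finset.mem_compl]
      intro hmem
      obtain ⟨w, hw, hwx⟩ := Finset.mem_image.1 hmem
      refine hx w hw ?_
      rw [← ZMod.intCast_zmod_eq_zero_iff_dvd, hnorm, Zsqrtd.re_add, Zsqrtd.im_add]
      push_cast
      have h5 : -(w.re : ZMod p) - ι * ((k : ZMod p) + (w.im : ZMod p)) = (x : ZMod p) := hwx
      have h6 : (x : ZMod p) + w.re = -ι * ((k : ZMod p) + w.im) := by
        linear_combination -h5
      rw [h6]
      linear_combination (-((k : ZMod p) + w.im) * ((k : ZMod p) + w.im)) * hι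
    · rintro x ⟨hx0, hxp, -⟩ y ⟨hy0, hyp, -⟩ hxy
      have h7 : (p : ℤ) ∣ y - x := (ZMod.intCast_eq_intCast_iff_dvd_sub x y p).1 hxy
      have h8 : y - x = 0 := Int.eq_zero_of_abs_lt_dvd h7 (by
        rw [abs_lt]
        constructor <;> omega)
      omega
  have h2 : ((p - W.card : ℕ) : ℝ) = (p : ℝ) - W.card := by
    rw [Nat.cast_sub (by rw [← hFc]; exact hFp)]
  rw [← h2]
  exact_mod_cast h1.trans hc.le

private theorem D_unit {z : GaussianInt} : z.norm = 1 ↔ IsUnit z :=
  Zsqrtd.norm_eq_one_iff' (by norm_num) z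

private theorem D_irr {p : ℕ} (hp : p.Prime) {z : GaussianInt} (h : z.norm = p) : Prime z := by
  rw [← irreducible_iff_prime]
  refine ⟨fun hu => ?_, fun a b hab => ?_⟩
  · have h1 := D_unit.2 hu
    rw [h] at h1
    exact hp.one_lt.ne' (by exact_mod_cast h1)
  · have h1 : a.norm * b.norm = p := by
      rw [← Zsqrtd.norm_mul, ← hab, h]
    have ha := GaussianInt.norm_nonneg a
    have hb := GaussianInt.norm_nonneg b
    obtain ⟨m, hm⟩ := Int.eq_ofNat_of_zero_le ha
    obtain ⟨l, hl⟩ := Int.eq_ofNat_of_zero_le hb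
    rw [hm, hl] at h1
    have h2 : m * l = p := by exact_mod_cast h1
    rcases hp.eq_one_or_self_of_dvd m ⟨l, h2.symm⟩ with h3 | h3
    · left
      rw [← D_unit, hm, h3]
      rfl
    · right
      have h4 : l = 1 := by
        rw [h3] at h2
        exact Nat.eq_of_mul_eq_mul_left hp.pos (by rw [h2, mul_one])
      rw [← D_unit, hl, h4]
      rfl

private theorem D_assoc {z w : GaussianInt} (hz : Prime z) (hw : Prime w) (h : w ∣ z) :
    z.norm = w.norm := by
  obtain ⟨u, hu⟩ := (hw.dvd_prime_iff_associated hz).1 h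
  rw [← hu, Zsqrtd.norm_mul, D_unit.2 u.isUnit, mul_one]

/-- a Gaussian prime whose norm is divisible by a prime `p ≡ 1 mod 4` has norm `p` -/
theorem norm_eq {p : ℕ} (hp : p.Prime) (hp4 : p % 4 = 1) {z : GaussianInt} (hz : Prime z)
    (h : (p : ℤ) ∣ z.norm) : z.norm = p := by
  have : Fact p.Prime := ⟨hp⟩
  obtain ⟨a, b, hab⟩ := Nat.Prime.sq_add_sq (p := p) (by omega)
  set w : GaussianInt := ⟨a, b⟩ with hw
  have hwn : w.norm = p := by
    rw [Zsqrtd.norm_def, ← hab, hw]
    push_cast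
    ring
  have hwn' : (star w).norm = p := by
    rw [Zsqrtd.norm_conj]
    exact hwn
  have h1 : ((p : ℤ) : GaussianInt) = w * star w := by
    rw [← hwn]
    exact Zsqrtd.norm_eq_mul_conj w
  have h2 : ((p : ℤ) : GaussianInt) ∣ ((z.norm : ℤ) : GaussianInt) :=
    map_dvd (Int.castRingHom GaussianInt) h
  have h3 : ((z.norm : ℤ) : GaussianInt) = z * star z := Zsqrtd.norm_eq_mul_conj z
  have h4 : w ∣ z * star z := by
    rw [← h3]
    refine dvd_trans ?_ h2
    rw [h1]
    exact dvd_mul_right _ _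
  rcases (D_irr hp hwn).dvd_or_dvd h4 with h5 | h5
  · rw [D_assoc hz (D_irr hp hwn) h5, hwn]
  · have h6 : star w ∣ z := by
      obtain ⟨c, hc⟩ := h5
      refine ⟨star c, ?_⟩
      rw [← star_mul', ← hc, star_star]
    rw [D_assoc hz (D_irr hp hwn') h6, hwn']

end Vale.Agent.P015S
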