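import Vale.Agent.Lib.P015S.C
import Vale.Agent.Lib.P015S.D

/-!
# P015S: counting translates of one pattern consisting of Gaussian primes
-/

namespace Vale.Agent.P015S

theorem E_norm (z : GaussianInt) : z.norm = z.re ^ 2 + z.im ^ 2 := by
  rw [Zsqrtd.norm_def]
  ring

theorem E_abs {a b c : ℤ} {Y : ℕ} (h : a ^ 2 + b ^ 2 = c) (hc : c ≤ (Y : ℤ) ^ 2) :
    |a| ≤ (Y : ℤ) ∧ |b| ≤ (Y : ℤ) := by
  have hY : (0 : ℤ) ≤ (Y : ℤ) := Int.natCast_nonneg Y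
  constructor
  · apply abs_le_of_sq_le_sq _ hY
    nlinarith [sq_nonneg b]
  · apply abs_le_of_sq_le_sq _ hY
    nlinarith [sq_nonneg a]

/-- the allowed residues of a row -/
def E_A (W : Finset GaussianInt) (k : ℤ) (p : ℕ) : Set ℤ :=
  {x : ℤ | ∀ w ∈ W, ¬ (p : ℤ) ∣ ((⟨x, k⟩ : GaussianInt) + w).norm}

theorem E_per (W : Finset GaussianInt) (k : ℤ) (p : ℕ) (x : ℤ) :
    x ∈ E_A W k p ↔ x + p ∈ E_A W k p := by
  have key : ∀ w : GaussianInt, (p : ℤ) ∣ ((⟨x, k⟩ : GaussianInt) + w).norm ↔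
      (p : ℤ) ∣ ((⟨x + p, k⟩ : GaussianInt) + w).norm := by
    intro w
    have e : ((⟨x + p, k⟩ : GaussianInt) + w).norm = ((⟨x, k⟩ : GaussianInt) + w).norm +
        (p : ℤ) * (2 * (x + w.re) + p) := by
      rw [E_norm, E_norm]
      simp only [Zsqrtd.re_add, Zsqrtd.im_add]
      ring
    rw [e]
    exact (Int.dvd_add_left (Dvd.intro _ rfl)).symm
  unfold E_A
  simp only [Set.mem_setOf_eq]
  constructor
  · intro h w hw hd
    exact h w hw ((key w).2 hd)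
  · intro h w hw hd
    exact h w hw ((key w).1 hd)

theorem E_row (W : Finset GaussianInt) (P : Finset ℕ) (hP : ∀ p ∈ P, p.Prime ∧ p % 4 = 1)
    (hPW : ∀ p ∈ P, ∀ v ∈ W, ∀ w ∈ W, v ≠ w → (v - w).norm < p) (X : ℕ)
    (hX : ∏ p ∈ P, p ≤ 2 * X + 1) (k : ℤ) :
    ({x : ℤ | -(X : ℤ) ≤ x ∧ x < -(X : ℤ) + (2 * X + 1 : ℕ) ∧ ∀ p ∈ P, x ∈ E_A W k p}.ncard : ℝ) ≤
      2 * (2 * X + 1) * Real.exp (-(W.card * ∑ p ∈ P, 1 / (p : ℝ))) := by
  have hr : ∀ p ∈ P, ({x : ℤ | 0 ≤ x ∧ x < p ∧ x ∈ E_A W k p}.ncard : ℝ) ≤ p - (W.card : ℕ) := by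
    intro p hp
    exact roots (hP p hp).1 (hP p hp).2 W (hPW p hp) k
  have h1 := row_count P (fun p hp => (hP p hp).1) (E_A W k) (fun p _ x => E_per W k p x) W.card hr
    (-(X : ℤ)) (2 * X + 1) hX
  refine h1.trans ?_
  have h2 : ∏ p ∈ P, (1 - (W.card : ℝ) / p) ≤ Real.exp (-(W.card * ∑ p ∈ P, 1 / (p : ℝ))) := by
    have e : Real.exp (-(W.card * ∑ p ∈ P, 1 / (p : ℝ))) = ∏ p ∈ P, Real.exp (-((W.card : ℝ) / p)) := by
      rw [← Real.exp_sum]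
      congr 1
      rw [Finset.mul_sum, ← Finset.sum_neg_distrib]
      refine Finset.sum_congr rfl fun p _ => ?_
      ring
    rw [e]
    apply Finset.prod_le_prod
    · intro p hp
      have hp0 : (0 : ℝ) < p := by exact_mod_cast (hP p hp).1.pos
      have h3 := hr p hp
      have h4 : (0 : ℝ) ≤ ({x : ℤ | 0 ≤ x ∧ x < p ∧ x ∈ E_A W k p}.ncard : ℝ) := Nat.cast_nonneg _
      have h5 : (W.card : ℝ) ≤ p := by linarith
      have h6 : (W.card : ℝ) / p ≤ 1 := by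
        rw [div_le_one hp0]
        exact h5
      linarith
    · intro p _
      have := Real.add_one_le_exp (-((W.card : ℝ) / p))
      linarith
  have h7 : (0 : ℝ) ≤ 2 * ((2 * X + 1 : ℕ) : ℝ) := by positivity
  have h8 := mul_le_mul_of_nonneg_left h2 h7
  refine h8.trans (le_of_eq ?_)
  push_cast
  ring

theorem E_box (N : ℕ) : ∃ F : Finset GaussianInt, F.card ≤ (2 * N + 1) ^ 2 ∧
    ∀ z : GaussianInt, |z.re| ≤ (N : ℤ) → |z.im| ≤ (N : ℤ) → z ∈ F := by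
  classical
  refine ⟨((Finset.Icc (-(N : ℤ)) N) ×ˢ (Finset.Icc (-(N : ℤ)) N)).image
    (fun q : ℤ × ℤ => (⟨q.1, q.2⟩ : GaussianInt)), ?_, ?_⟩
  · refine Finset.card_image_le.trans ?_
    rw [Finset.card_product, Int.card_Icc]
    have : (N + 1 - -(N : ℤ)).toNat = 2 * N + 1 := by omega
    rw [this]
    exact le_of_eq (by ring)
  · intro z h1 h2
    rw [Finset.mem_image]
    refine ⟨(z.re, z.im), ?_, rfl⟩
    rw [Finset.mem_product, Finset.mem_Icc, Finset.mem_Icc]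
    exact ⟨abs_le.1 h1, abs_le.1 h2⟩

theorem E_rows (W : Finset GaussianInt) (P : Finset ℕ) (hP : ∀ p ∈ P, p.Prime ∧ p % 4 = 1)
    (hPW : ∀ p ∈ P, ∀ v ∈ W, ∀ w ∈ W, v ≠ w → (v - w).norm < p) (X : ℕ)
    (hX : ∏ p ∈ P, p ≤ 2 * X + 1) :
    ∃ F : Finset GaussianInt, (F.card : ℝ) ≤
      2 * (2 * X + 1) ^ 2 * Real.exp (-(W.card * ∑ p ∈ P, 1 / (p : ℝ))) ∧
    ∀ z : GaussianInt, |z.re| ≤ (X : ℤ) → |z.im| ≤ (X : ℤ) →
      (∀ p ∈ P, ∀ w ∈ W, ¬ (p : ℤ) ∣ (z + w).norm) → z ∈ F := by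
  classical
  set R : ℤ → Finset ℤ := fun k => (Finset.Ico (-(X : ℤ)) (-(X : ℤ) + (2 * X + 1 : ℕ))).filter
    (fun x => ∀ p ∈ P, x ∈ E_A W k p) with hR
  have hRc : ∀ k, ((R k).card : ℝ) ≤
      2 * (2 * X + 1) * Real.exp (-(W.card * ∑ p ∈ P, 1 / (p : ℝ))) := by
    intro k
    have h1 := E_row W P hP hPW X hX k
    have h2 : {x : ℤ | -(X : ℤ) ≤ x ∧ x < -(X : ℤ) + (2 * X + 1 : ℕ) ∧ ∀ p ∈ P, x ∈ E_A W k p} =
        ((R k : Finset ℤ) : Set ℤ) := by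
      ext x
      rw [hR]
      simp only [Set.mem_setOf_eq, Finset.coe_filter, Finset.mem_Ico]
      constructor
      · rintro ⟨a, b, c⟩
        exact ⟨⟨a, b⟩, c⟩
      · rintro ⟨⟨a, b⟩, c⟩
        exact ⟨a, b, c⟩
    rw [h2, Set.ncard_coe_finset] at h1
    exact h1
  refine ⟨(Finset.Icc (-(X : ℤ)) X).biUnion (fun k => (R k).image
    (fun x : ℤ => (⟨x, k⟩ : GaussianInt))), ?_, ?_⟩
  · have h1 : (((Finset.Icc (-(X : ℤ)) X).biUnion (fun k => (R k).image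
        (fun x : ℤ => (⟨x, k⟩ : GaussianInt)))).card : ℝ) ≤
        ∑ k ∈ Finset.Icc (-(X : ℤ)) X, ((R k).card : ℝ) := by
      have h2 : ((Finset.Icc (-(X : ℤ)) X).biUnion (fun k => (R k).image
          (fun x : ℤ => (⟨x, k⟩ : GaussianInt)))).card ≤ ∑ k ∈ Finset.Icc (-(X : ℤ)) X, (R k).card :=
        Finset.card_biUnion_le.trans (Finset.sum_le_sum fun k _ => Finset.card_image_le)
      exact_mod_cast h2
    refine h1.trans ?_
    have h3 := Finset.sum_le_sum (s := Finset.Icc (-(X : ℤ)) X) (fun k _ => hRc k)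
    refine h3.trans ?_
    rw [Finset.sum_const, Int.card_Icc, nsmul_eq_mul]
    have : (X + 1 - -(X : ℤ)).toNat = 2 * X + 1 := by omega
    rw [this]
    push_cast
    exact le_of_eq (by ring)
  · intro z h1 h2 h3
    rw [Finset.mem_biUnion]
    refine ⟨z.im, Finset.mem_Icc.2 (abs_le.1 h2), ?_⟩
    rw [Finset.mem_image]
    refine ⟨z.re, ?_, rfl⟩
    rw [hR]
    simp only [Finset.mem_filter, Finset.mem_Ico]
    have h4 := abs_le.1 h1
    refine ⟨⟨h4.1, by push_cast; linarith [h4.2]⟩, ?_⟩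
    intro p hp w hw
    exact h3 p hp w hw

/-- `W` a finite pattern containing `0` with elements of norm at most `M²` and pairwise differences
of norm less than every `p ∈ P`; `X ≥ 1`; all `p ∈ P` are `≡ 1 mod 4` and at most `Y²`; the product of
`P` is at most `2X+1`.  The points `z` in the square `[-X,X]²` with all `z + w` Gaussian primes: either some
`z + w` has norm in `P` (then `|re z|, |im z| ≤ Y + M`), or `z` is counted in `row_count` -/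
theorem pattern (W : Finset GaussianInt) (P : Finset ℕ) (hP : ∀ p ∈ P, p.Prime ∧ p % 4 = 1)
    (hPW : ∀ p ∈ P, ∀ v ∈ W, ∀ w ∈ W, v ≠ w → (v - w).norm < p) (M Y X : ℕ)
    (hM : ∀ w ∈ W, w.norm ≤ (M : ℤ) ^ 2) (hY : ∀ p ∈ P, p ≤ Y ^ 2)
    (hX : ∏ p ∈ P, p ≤ 2 * X + 1) :
    ({z : GaussianInt | |z.re| ≤ X ∧ |z.im| ≤ X ∧ ∀ w ∈ W, Prime (z + w)}.ncard : ℝ) ≤
      (2 * (Y + M) + 1) ^ 2 +
        2 * (2 * X + 1) ^ 2 * Real.exp (-(W.card * ∑ p ∈ P, 1 / (p : ℝ))) := by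
  classical
  obtain ⟨F1, c1, m1⟩ := E_box (Y + M)
  obtain ⟨F2, c2, m2⟩ := E_rows W P hP hPW X hX
  have hsub : {z : GaussianInt | |z.re| ≤ X ∧ |z.im| ≤ X ∧ ∀ w ∈ W, Prime (z + w)} ⊆
      ((F1 ∪ F2 : Finset GaussianInt) : Set GaussianInt) := by
    rintro z ⟨h1, h2, h3⟩
    rw [Finset.mem_coe, Finset.mem_union]
    by_cases h4 : ∀ p ∈ P, ∀ w ∈ W, ¬ (p : ℤ) ∣ (z + w).norm
    · exact Or.inr (m2 z h1 h2 h4)
    · left
      push Not at h4
      obtain ⟨p, hp, w, hw, hd⟩ := h4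
      have h5 := norm_eq (hP p hp).1 (hP p hp).2 (h3 w hw) hd
      rw [E_norm] at h5
      have h6 : ((p : ℕ) : ℤ) ≤ (Y : ℤ) ^ 2 := by exact_mod_cast hY p hp
      obtain ⟨a1, a2⟩ := E_abs h5 h6
      obtain ⟨b1, b2⟩ := E_abs (E_norm w).symm (hM w hw)
      rw [Zsqrtd.re_add] at a1
      rw [Zsqrtd.im_add] at a2
      rw [abs_le] at a1 a2 b1 b2
      apply m1
      · rw [abs_le]
        push_cast
        constructor <;> linarith [a1.1, a1.2, b1.1, b1.2]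
      · rw [abs_le]
        push_cast
        constructor <;> linarith [a2.1, a2.2, b2.1, b2.2]
  have h7 := Set.ncard_le_ncard hsub (Finset.finite_toSet _)
  rw [Set.ncard_coe_finset] at h7
  have h8 : (F1 ∪ F2).card ≤ F1.card + F2.card := Finset.card_union_le _ _
  have h9 : ({z : GaussianInt | |z.re| ≤ X ∧ |z.im| ≤ X ∧ ∀ w ∈ W, Prime (z + w)}.ncard : ℝ) ≤
      (F1.card : ℝ) + F2.card := by exact_mod_cast h7.trans h8
  have h10 : (F1.card : ℝ) ≤ (2 * ((Y : ℝ) + M) + 1) ^ 2 := by exact_mod_cast c1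
  linarith

end Vale.Agent.P015S
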