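import Vale.Agent.Lib.P015S.E

/-!
# P015S: union over all patterns of paths
-/

namespace Vale.Agent.P015S

/-- starting points in the square `[-X,X]²` of paths of `n` distinct Gaussian primes with steps
of length at most `D` -/
def starts (D : ℝ) (n X : ℕ) : Set GaussianInt :=
  {w | |w.re| ≤ X ∧ |w.im| ≤ X ∧ ∃ z : ℕ → GaussianInt, z 0 = w ∧ (∀ j < n, Prime (z j)) ∧
    (∀ j, j + 1 < n → ((z (j + 1) - z j).norm : ℝ) ≤ D ^ 2) ∧ Set.InjOn z (Set.Iio n)}

/-- extension by zero of a step sequence -/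
private def F_ext {n : ℕ} (σ : Fin n → GaussianInt) (i : ℕ) : GaussianInt :=
  if h : i < n then σ ⟨i, h⟩ else 0

/-- partial sums -/
private def F_S {n : ℕ} (σ : Fin n → GaussianInt) (j : ℕ) : GaussianInt :=
  ∑ i ∈ Finset.range j, F_ext σ i

private noncomputable def F_W {n : ℕ} (σ : Fin n → GaussianInt) : Finset GaussianInt := by
  classical exact (Finset.range n).image (F_S σ)

private theorem F_mem_W {n : ℕ} (σ : Fin n → GaussianInt) (w : GaussianInt) :
    w ∈ F_W σ ↔ ∃ j < n, F_S σ j = w := by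
  classical
  unfold F_W
  simp [Finset.mem_image]

private def F_good (D : ℝ) {n : ℕ} (σ : Fin n → GaussianInt) : Prop :=
  (∀ i, ((σ i).norm : ℝ) ≤ D ^ 2) ∧ Set.InjOn (F_S σ) (Set.Iio n)

private theorem F_norm_eq (z : GaussianInt) : (z.norm : ℝ) = ‖(z : ℂ)‖ ^ 2 := by
  rw [GaussianInt.intCast_real_norm, Complex.normSq_eq_norm_sq]

private theorem F_ext_le {D : ℝ} (hD : 1 ≤ D) {n : ℕ} {σ : Fin n → GaussianInt}
    (h : F_good D σ) (i : ℕ) : ‖((F_ext σ i : GaussianInt) : ℂ)‖ ≤ D := by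
  unfold F_ext
  split_ifs with hi
  · have h1 := h.1 ⟨i, hi⟩
    rw [F_norm_eq] at h1
    exact le_of_sq_le_sq h1 (by linarith)
  · simp
    linarith

private theorem F_diff_le {D : ℝ} (hD : 1 ≤ D) {n : ℕ} {σ : Fin n → GaussianInt}
    (h : F_good D σ) {a b : ℕ} (hab : a ≤ b) (hb : b ≤ n) :
    ‖((F_S σ b - F_S σ a : GaussianInt) : ℂ)‖ ≤ D * n := by
  have h1 : F_S σ b - F_S σ a = ∑ i ∈ Finset.Ico a b, F_ext σ i := by
    unfold F_S
    rw [Finset.sum_Ico_eq_sub _ hab]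
  rw [h1]
  have h2 : ((∑ i ∈ Finset.Ico a b, F_ext σ i : GaussianInt) : ℂ) =
      ∑ i ∈ Finset.Ico a b, ((F_ext σ i : GaussianInt) : ℂ) := map_sum GaussianInt.toComplex _ _
  rw [h2]
  refine (norm_sum_le _ _).trans ?_
  refine (Finset.sum_le_sum fun i _ => F_ext_le hD h i).trans ?_
  rw [Finset.sum_const, Nat.card_Ico, nsmul_eq_mul, mul_comm]
  have h3 : ((b - a : ℕ) : ℝ) ≤ n := by exact_mod_cast (Nat.sub_le b a).trans hb
  gcongr

private theorem F_norm_le {D : ℝ} (hD : 1 ≤ D) {n M : ℕ} {σ : Fin n → GaussianInt}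
    (h : F_good D σ) (hM : D * n ≤ M) {a b : ℕ} (ha : a < n) (hb : b < n) :
    (F_S σ b - F_S σ a).norm ≤ (M : ℤ) ^ 2 := by
  have key : ‖((F_S σ b - F_S σ a : GaussianInt) : ℂ)‖ ≤ M := by
    rcases le_total a b with hab | hab
    · exact (F_diff_le hD h hab hb.le).trans hM
    · have h1 := (F_diff_le hD h hab ha.le).trans hM
      have h2 : ((F_S σ b - F_S σ a : GaussianInt) : ℂ) =
          - ((F_S σ a - F_S σ b : GaussianInt) : ℂ) := by
        rw [← map_neg GaussianInt.toComplex, neg_sub]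
      rw [h2, norm_neg]
      exact h1
  have h3 : ((F_S σ b - F_S σ a).norm : ℝ) ≤ (M : ℝ) ^ 2 := by
    rw [F_norm_eq]
    exact pow_le_pow_left₀ (norm_nonneg _) key 2
  exact_mod_cast h3

open Classical in
private noncomputable def F_T (D : ℝ) {n : ℕ} (X : ℕ) (σ : Fin n → GaussianInt) :
    Set GaussianInt :=
  if F_good D σ then {z : GaussianInt | |z.re| ≤ X ∧ |z.im| ≤ X ∧ ∀ w ∈ F_W σ, Prime (z + w)}
  else ∅

private theorem F_box_finite (X : ℕ) :
    {z : GaussianInt | |z.re| ≤ (X : ℤ) ∧ |z.im| ≤ (X : ℤ)}.Finite := by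
  have h1 : ((Set.Icc (-(X : ℤ)) X) ×ˢ (Set.Icc (-(X : ℤ)) X)).Finite :=
    (Set.finite_Icc _ _).prod (Set.finite_Icc _ _)
  refine (h1.image fun p : ℤ × ℤ => (⟨p.1, p.2⟩ : GaussianInt)).subset ?_
  rintro ⟨a, b⟩ ⟨ha, hb⟩
  exact ⟨(a, b), ⟨abs_le.1 ha, abs_le.1 hb⟩, rfl⟩

private theorem F_T_finite (D : ℝ) {n : ℕ} (X : ℕ) (σ : Fin n → GaussianInt) :
    (F_T D X σ).Finite := by
  refine (F_box_finite X).subset ?_
  intro z hz
  unfold F_T at hz
  split_ifs at hz with h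
  · exact ⟨hz.1, hz.2.1⟩
  · exact hz.elim

private theorem F_sub {D : ℝ} (hD : 1 ≤ D) (B : Finset GaussianInt)
    (hB : ∀ w : GaussianInt, (w.norm : ℝ) ≤ D ^ 2 → w ∈ B) (n X : ℕ) (hn : 1 ≤ n) :
    starts D n X ⊆ ⋃ σ ∈ Fintype.piFinset (fun _ : Fin n => B), F_T D X σ := by
  rintro w ⟨hre, him, z, hz0, hzp, hzs, hzi⟩
  set σ : Fin n → GaussianInt := fun i => if (i : ℕ) + 1 < n then z (i + 1) - z i else 0 with hσ
  have hnorm : ∀ i, ((σ i).norm : ℝ) ≤ D ^ 2 := by
    intro i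
    rw [hσ]
    simp only
    split_ifs with h
    · exact hzs i h
    · simp
      positivity
  have hext : ∀ i, i + 1 < n → F_ext σ i = z (i + 1) - z i := by
    intro i hi
    unfold F_ext
    rw [dif_pos (by omega : i < n), hσ]
    simp only
    rw [if_pos hi]
  have hS : ∀ j < n, F_S σ j = z j - w := by
    intro j hj
    unfold F_S
    rw [← hz0, ← Finset.sum_range_sub z j]
    refine Finset.sum_congr rfl fun i hi => ?_
    rw [Finset.mem_range] at hi
    exact hext i (by omega)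
  have hgood : F_good D σ := by
    refine ⟨hnorm, fun a ha b hb hab => ?_⟩
    rw [Set.mem_Iio] at ha hb
    rw [hS a ha, hS b hb, sub_left_inj] at hab
    exact hzi ha hb hab
  rw [Set.mem_iUnion₂]
  refine ⟨σ, Fintype.mem_piFinset.2 fun i => hB _ (hnorm i), ?_⟩
  unfold F_T
  rw [if_pos hgood]
  refine ⟨hre, him, fun v hv => ?_⟩
  obtain ⟨j, hj, rfl⟩ := (F_mem_W σ v).1 hv
  rw [hS j hj, add_sub_cancel]
  exact hzp j hj

/-- union bound over the at most `b ^ n` step sequences (`B` = ball of radius `D`), each pattern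
`W = {z j - z 0 : j < n}` has `n` elements of norm at most `(D n)²` and differences of norm at most `(D n)²` -/
theorem union {D : ℝ} (hD : 1 ≤ D) (B : Finset GaussianInt)
    (hB : ∀ w : GaussianInt, (w.norm : ℝ) ≤ D ^ 2 → w ∈ B) (n X Y M : ℕ) (hn : 1 ≤ n)
    (hM : D * n ≤ M) (P : Finset ℕ) (hP : ∀ p ∈ P, p.Prime ∧ p % 4 = 1) (hPM : ∀ p ∈ P, M ^ 2 < p)
    (hY : ∀ p ∈ P, p ≤ Y ^ 2) (hX : ∏ p ∈ P, p ≤ 2 * X + 1) :
    ((starts D n X).ncard : ℝ) ≤ (B.card : ℝ) ^ n * ((2 * (Y + M) + 1) ^ 2 +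
        2 * (2 * X + 1) ^ 2 * Real.exp (-(n * ∑ p ∈ P, 1 / (p : ℝ)))) := by
  classical
  set K : ℝ := (2 * (Y + M) + 1) ^ 2 +
        2 * (2 * X + 1) ^ 2 * Real.exp (-(n * ∑ p ∈ P, 1 / (p : ℝ))) with hK
  have hK0 : 0 ≤ K := by positivity
  have h1 : (starts D n X).ncard ≤
      (⋃ σ ∈ Fintype.piFinset (fun _ : Fin n => B), F_T D X σ).ncard := by
    refine Set.ncard_le_ncard (F_sub hD B hB n X hn) ?_
    exact (Finset.finite_toSet _).biUnion fun σ _ => F_T_finite D X σ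
  have h2 : (⋃ σ ∈ Fintype.piFinset (fun _ : Fin n => B), F_T D X σ).ncard ≤
      ∑ σ ∈ Fintype.piFinset (fun _ : Fin n => B), (F_T D X σ).ncard :=
    Finset.set_ncard_biUnion_le _ _
  have h3 : ∀ σ ∈ Fintype.piFinset (fun _ : Fin n => B), ((F_T D X σ).ncard : ℝ) ≤ K := by
    intro σ _
    unfold F_T
    split_ifs with h
    · have hcard : (F_W σ).card = n := by
        unfold F_W
        rw [Finset.card_image_of_injOn, Finset.card_range]
        intro a ha b hb hab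
        rw [Finset.coe_range] at ha hb
        exact h.2 ha hb hab
      have h4 := pattern (F_W σ) P hP (by
        intro p hp v hv w hw hvw
        obtain ⟨a, ha, rfl⟩ := (F_mem_W σ v).1 hv
        obtain ⟨b, hb, rfl⟩ := (F_mem_W σ w).1 hw
        refine lt_of_le_of_lt (F_norm_le hD h hM hb ha) ?_
        exact_mod_cast hPM p hp) M Y X (by
        intro w hw
        obtain ⟨b, hb, rfl⟩ := (F_mem_W σ w).1 hw
        have h5 := F_norm_le hD h hM (a := 0) (b := b) (by omega) hb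
        have h6 : F_S σ 0 = 0 := by simp [F_S]
        rwa [h6, sub_zero] at h5) hY hX
      rw [hcard] at h4
      exact h4
    · simpa using hK0
  calc ((starts D n X).ncard : ℝ)
      ≤ ((∑ σ ∈ Fintype.piFinset (fun _ : Fin n => B), (F_T D X σ).ncard : ℕ) : ℝ) := by
        exact_mod_cast h1.trans h2
    _ = ∑ σ ∈ Fintype.piFinset (fun _ : Fin n => B), ((F_T D X σ).ncard : ℝ) := by
        push_cast
        rfl
    _ ≤ ∑ σ ∈ Fintype.piFinset (fun _ : Fin n => B), K := Finset.sum_le_sum h3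
    _ = (B.card : ℝ) ^ n * K := by
        rw [Finset.sum_const, Fintype.card_piFinset, nsmul_eq_mul]
        simp

end Vale.Agent.P015S
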