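import Vale.Agent.Lib.P015S.B
import Vale.Agent.Lib.P015S.F

/-!
# P015S: choice of the parameters

`b = B.card`, `K = log b + 4`, `δ, y₀` from `mert K`, `ε = δ / 4`, `y = log X / log 4`,
`P` = primes `≡ 1 mod 4` in `(y ^ δ, y]` (product at most `4 ^ y ≤ X`, `primorial_le_four_pow`),
`n = ⌈(log X) ^ ε⌉`, `M = ⌈D n⌉`, `Y = ⌈y⌉`.
-/

namespace Vale.Agent.P015S

open Filter Topology

theorem Final_mono {D : ℝ} {n m X : ℕ} (h : m ≤ n) : starts D n X ⊆ starts D m X := by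
  rintro w ⟨h1, h2, z, h3, h4, h5, h6⟩
  exact ⟨h1, h2, z, h3, fun j hj => h4 j (hj.trans_le h), fun j hj => h5 j (hj.trans_le h),
    h6.mono fun j hj => lt_of_lt_of_le hj h⟩

theorem Final_box (N : ℕ) : ∃ B : Finset GaussianInt, ∀ w : GaussianInt,
    |w.re| ≤ (N : ℤ) → |w.im| ≤ (N : ℤ) → w ∈ B := by
  classical
  refine ⟨Finset.image (fun p : ℤ × ℤ => (⟨p.1, p.2⟩ : GaussianInt))
    (Finset.Icc (-(N : ℤ)) N ×ˢ Finset.Icc (-(N : ℤ)) N), fun w h1 h2 => ?_⟩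
  rw [Finset.mem_image]
  refine ⟨(w.re, w.im), ?_, rfl⟩
  rw [Finset.mem_product, Finset.mem_Icc, Finset.mem_Icc]
  exact ⟨abs_le.1 h1, abs_le.1 h2⟩

theorem Final_fin (D : ℝ) (n X : ℕ) : (starts D n X).Finite := by
  obtain ⟨B, hB⟩ := Final_box X
  refine B.finite_toSet.subset ?_
  rintro w ⟨h1, h2, -⟩
  exact hB w h1 h2

theorem Final_ball {D : ℝ} (hD : 1 ≤ D) : ∃ B : Finset GaussianInt,
    ∀ w : GaussianInt, (w.norm : ℝ) ≤ D ^ 2 → w ∈ B := by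
  obtain ⟨B, hB⟩ := Final_box ⌈D⌉₊
  refine ⟨B, fun w hw => ?_⟩
  have hn : (w.norm : ℝ) = (w.re : ℝ) ^ 2 + (w.im : ℝ) ^ 2 := by
    rw [Zsqrtd.norm_def]
    push_cast
    ring
  rw [hn] at hw
  have key : ∀ a : ℤ, (a : ℝ) ^ 2 ≤ D ^ 2 → |a| ≤ ((⌈D⌉₊ : ℕ) : ℤ) := by
    intro a ha
    have h1 : |(a : ℝ)| ≤ D := abs_le_of_sq_le_sq ha (by linarith)
    have h2 : |(a : ℝ)| ≤ (⌈D⌉₊ : ℝ) := h1.trans (Nat.le_ceil D)
    exact_mod_cast h2
  exact hB w (key _ (by nlinarith [sq_nonneg (w.im : ℝ)])) (key _ (by nlinarith [sq_nonneg (w.re : ℝ)]))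

theorem Final_log4 : 1 ≤ Real.log 4 ∧ Real.log 4 ≤ 2 := by
  have h : Real.log 4 = 2 * Real.log 2 := by
    rw [show (4 : ℝ) = 2 ^ 2 by norm_num, Real.log_pow]
    norm_num
  have h1 := Real.log_two_gt_d9
  have h2 := Real.log_two_lt_d9
  rw [h]
  constructor <;> linarith

theorem Final_n1 {l : ℝ} (h : 12 ≤ l) : 2 * l ^ 2 ≤ l ^ 4 := by
  have h1 : 2 ≤ l ^ 2 := by nlinarith
  calc 2 * l ^ 2 ≤ l ^ 2 * l ^ 2 := mul_le_mul_of_nonneg_right h1 (sq_nonneg l)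
    _ = l ^ 4 := by ring

theorem Final_n2 {D l : ℝ} (hD : 1 ≤ D) (h : 4 * (D + 1) ≤ l) : D * (l + 1) + 1 ≤ l ^ 2 / 2 := by
  have hl : 0 ≤ l := by linarith
  have h1 : D * (l + 1) + 1 ≤ (D + 1) * (l + 1) := by nlinarith
  have h2 : (D + 1) * (l + 1) ≤ (l / 4) * (l + 1) :=
    mul_le_mul_of_nonneg_right (by linarith) (by linarith)
  have h3 : (l / 4) * (l + 1) ≤ (l / 4) * (2 * l) :=
    mul_le_mul_of_nonneg_left (by linarith) (by linarith)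
  calc D * (l + 1) + 1 ≤ (l / 4) * (2 * l) := h1.trans (h2.trans h3)
    _ = l ^ 2 / 2 := by ring

theorem Final_n3 (l : ℝ) : (l ^ 2 / 2) ^ 2 ≤ l ^ 4 / 2 := by
  have h : 0 ≤ l ^ 4 := by positivity
  have h2 : (l ^ 2 / 2) ^ 2 = l ^ 4 / 4 := by ring
  rw [h2]
  linarith

theorem Final_n4 {β l : ℝ} (hl : 12 ≤ l) (h : β + 12 ≤ l) : (l + 1) * β + l ≤ 2 * l ^ 2 := by
  have h1 : (l + 1) * β ≤ (l + 1) * (l - 12) :=
    mul_le_mul_of_nonneg_left (by linarith) (by linarith)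
  have h2 : 0 ≤ l ^ 2 := sq_nonneg l
  have h3 : (l + 1) * (l - 12) = l ^ 2 - 11 * l - 12 := by ring
  rw [h3] at h1
  linarith

theorem Final_n5 {X : ℝ} (hX : 1 ≤ X) : (2 * X + 1) ^ 2 ≤ 9 * X ^ 2 := by
  have h := pow_le_pow_left₀ (by linarith) (show 2 * X + 1 ≤ 3 * X by linarith) 2
  refine h.trans_eq ?_
  ring

theorem Final_T1 {X L l β a Y M : ℝ} (hX : Real.exp L = X) (hX0 : 0 < X) (hl : 12 ≤ l)
    (hlβ : β + 12 ≤ l) (hlL : 2 * l ^ 2 ≤ L) (h4 : 98 * L ^ 2 ≤ Real.exp L) {m : ℝ}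
    (hβ0 : 0 ≤ β) (hm : m ≤ l + 1) (ha : a = Real.exp (m * β)) (hY : Y ≤ L + 1)
    (hM : M ≤ l ^ 2 / 2) (hY0 : 0 ≤ Y) (hM0 : 0 ≤ M) :
    a * (2 * (Y + M) + 1) ^ 2 ≤ X ^ 2 * Real.exp (-l) / 2 := by
  have h5 : a ≤ X * Real.exp (-l) := by
    rw [ha, ← hX, ← Real.exp_add]
    refine Real.exp_le_exp.2 ?_
    have h6 : m * β ≤ (l + 1) * β := mul_le_mul_of_nonneg_right hm hβ0
    have h7 := Final_n4 hl hlβ
    linarith
  have h6 : (2 * (Y + M) + 1) ^ 2 ≤ X / 2 := by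
    have h0 : 1 ≤ l ^ 2 := by nlinarith
    have h7 : 2 * (Y + M) + 1 ≤ 7 * L := by linarith
    have h8 : (2 * (Y + M) + 1) ^ 2 ≤ (7 * L) ^ 2 := pow_le_pow_left₀ (by positivity) h7 2
    rw [hX] at h4
    have h9 : (7 * L) ^ 2 = 49 * L ^ 2 := by ring
    rw [h9] at h8
    linarith
  calc a * (2 * (Y + M) + 1) ^ 2 ≤ (X * Real.exp (-l)) * (X / 2) :=
        mul_le_mul h5 h6 (sq_nonneg _) (by positivity)
    _ = _ := by ring

theorem Final_T2 {X l β a m S : ℝ} (hX1 : 1 ≤ X) (hl : 12 ≤ l) (hm : l ≤ m)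
    (ha : a = Real.exp (m * β)) (hS : β + 4 ≤ S) :
    a * (2 * (2 * X + 1) ^ 2 * Real.exp (-(m * S))) ≤ X ^ 2 * Real.exp (-l) / 2 := by
  have h5 : Real.exp (m * β) * Real.exp (-(m * S)) ≤ Real.exp (-l) / 36 := by
    rw [← Real.exp_add]
    have h6 : m * (β + 4) ≤ m * S := mul_le_mul_of_nonneg_left hS (by linarith)
    have h7 : m * β + -(m * S) ≤ -l + -(3 * l) := by
      rw [mul_add] at h6
      linarith
    refine (Real.exp_le_exp.2 h7).trans ?_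
    rw [Real.exp_add, Real.exp_neg (3 * l), ← div_eq_mul_inv]
    refine div_le_div_of_nonneg_left (Real.exp_pos _).le (by norm_num) ?_
    linarith [Real.add_one_le_exp (3 * l)]
  have h8 := Final_n5 hX1
  rw [ha]
  calc Real.exp (m * β) * (2 * (2 * X + 1) ^ 2 * Real.exp (-(m * S)))
      = 2 * (2 * X + 1) ^ 2 * (Real.exp (m * β) * Real.exp (-(m * S))) := by ring
    _ ≤ 2 * (9 * X ^ 2) * (Real.exp (-l) / 36) :=
        mul_le_mul (by linarith) h5 (by positivity) (by positivity)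
    _ = _ := by ring

theorem final {D : ℝ} (hD : 1 ≤ D) : ∃ ε : ℝ, 0 < ε ∧ ∃ X₀ : ℕ, ∀ X : ℕ, X₀ ≤ X →
    ∀ n : ℕ, Real.log X ^ ε ≤ n →
    ((starts D n X).ncard : ℝ) ≤ (X : ℝ) ^ 2 * Real.exp (-(Real.log X ^ ε)) := by
  obtain ⟨B, hB⟩ := Final_ball hD
  have hb1 : 1 ≤ B.card := by
    rw [Nat.one_le_iff_ne_zero, Ne, Finset.card_eq_zero]
    intro h
    have h0 : (0 : GaussianInt) ∈ B := hB 0 (by simp; positivity)
    rw [h] at h0
    simp at h0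
  have hb1' : (1 : ℝ) ≤ B.card := by exact_mod_cast hb1
  set β : ℝ := Real.log B.card with hβ
  have hβ0 : 0 ≤ β := Real.log_nonneg hb1'
  obtain ⟨δ, hδ0, hδ1, y₀, hy₀⟩ := mert (β + 4)
  refine ⟨δ / 4, by positivity, ?_⟩
  have hlog : Tendsto (fun X : ℕ => Real.log X) atTop atTop :=
    Real.tendsto_log_atTop.comp tendsto_natCast_atTop_atTop
  have e1 : ∀ᶠ L : ℝ in atTop, 1 ≤ L := eventually_ge_atTop 1
  have e2 : ∀ᶠ L : ℝ in atTop, y₀ * Real.log 4 ≤ L := eventually_ge_atTop _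
  have e3 : ∀ᶠ L : ℝ in atTop, max (4 * (D + 1)) (β + 12) ≤ L ^ (δ / 4) :=
    (tendsto_rpow_atTop (by positivity)).eventually_ge_atTop _
  have e4 : ∀ᶠ L : ℝ in atTop, 98 * L ^ 2 ≤ Real.exp L := by
    have h := (Real.isLittleO_pow_exp_atTop (n := 2)).bound (show (0 : ℝ) < 1 / 98 by norm_num)
    filter_upwards [h] with L hL
    rw [Real.norm_of_nonneg (by positivity), Real.norm_of_nonneg (Real.exp_pos _).le] at hL
    linarith
  obtain ⟨X₀, hX₀⟩ := eventually_atTop.1 (hlog.eventually (e1.and (e2.and (e3.and e4))))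
  refine ⟨X₀, fun X hX n hn => ?_⟩
  obtain ⟨h1, h2, h3, h4⟩ := hX₀ X hX
  set L : ℝ := Real.log X with hL
  set l : ℝ := L ^ (δ / 4) with hl
  have hX0 : (0 : ℝ) < X := by
    rcases Nat.eq_zero_or_pos X with h | h
    · rw [hL, h, Nat.cast_zero, Real.log_zero] at h1
      linarith
    · exact_mod_cast h
  have hexpL : Real.exp L = X := Real.exp_log hX0
  have hX1 : (1 : ℝ) ≤ X := by
    rw [← hexpL]
    exact Real.one_le_exp (by linarith)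
  obtain ⟨hlog4, hlog4'⟩ := Final_log4
  have hlD : 4 * (D + 1) ≤ l := (le_max_left _ _).trans h3
  have hlβ : β + 12 ≤ l := (le_max_right _ _).trans h3
  have hl12 : 12 ≤ l := by linarith
  have hL0 : 0 ≤ L := by linarith
  have hl4 : l ^ 4 = L ^ δ := by
    rw [hl, ← Real.rpow_natCast, ← Real.rpow_mul hL0]
    congr 1
    push_cast
    ring
  have hlL : l ^ 4 ≤ L := by
    rw [hl4]
    calc L ^ δ ≤ L ^ (1 : ℝ) := Real.rpow_le_rpow_of_exponent_le h1 hδ1.le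
      _ = L := Real.rpow_one L
  have hl2 : 2 * l ^ 2 ≤ l ^ 4 := Final_n1 hl12
  -- the parameters
  set n₁ : ℕ := ⌈l⌉₊ with hn₁
  have hn1a : l ≤ n₁ := Nat.le_ceil l
  have hn1b : (n₁ : ℝ) ≤ l + 1 := (Nat.ceil_lt_add_one (by linarith)).le
  have hn1c : n₁ ≤ n := Nat.ceil_le.2 hn
  have hn1d : 1 ≤ n₁ := by
    have : (1 : ℝ) ≤ n₁ := by linarith
    exact_mod_cast this
  set M : ℕ := ⌈D * n₁⌉₊ with hMdef
  have hMa : D * n₁ ≤ M := Nat.le_ceil _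
  have hMb : (M : ℝ) ≤ D * n₁ + 1 := (Nat.ceil_lt_add_one (by positivity)).le
  have hMc : (M : ℝ) ≤ l ^ 2 / 2 := by
    have h5 : D * n₁ ≤ D * (l + 1) := mul_le_mul_of_nonneg_left hn1b (by linarith)
    have h6 := Final_n2 hD hlD
    linarith
  set y : ℝ := L / Real.log 4 with hy
  have hlog40 : 0 < Real.log 4 := by linarith
  have hyL : y ≤ L := div_le_self hL0 hlog4
  have hy0 : 0 ≤ y := by positivity
  have hyy : y₀ ≤ y := by rwa [hy, le_div_iff₀ hlog40]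
  have hyδ : l ^ 4 / 2 ≤ y ^ δ := by
    rw [hl4, hy, Real.div_rpow hL0 hlog40.le]
    refine div_le_div_of_nonneg_left (by positivity) (by positivity) ?_
    calc Real.log 4 ^ δ ≤ Real.log 4 ^ (1 : ℝ) := Real.rpow_le_rpow_of_exponent_le hlog4 hδ1.le
      _ = Real.log 4 := Real.rpow_one _
      _ ≤ 2 := hlog4'
  set Y : ℕ := ⌈y⌉₊ with hYdef
  have hYa : y ≤ Y := Nat.le_ceil _
  have hYb : (Y : ℝ) ≤ y + 1 := (Nat.ceil_lt_add_one hy0).le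
  set P : Finset ℕ := (Finset.range (⌊y⌋₊ + 1)).filter
      (fun p : ℕ => p.Prime ∧ p % 4 = 1 ∧ y ^ δ < (p : ℝ)) with hPdef
  have hPmem : ∀ p ∈ P, p < ⌊y⌋₊ + 1 ∧ p.Prime ∧ p % 4 = 1 ∧ y ^ δ < (p : ℝ) := by
    intro p hp
    rw [hPdef, Finset.mem_filter, Finset.mem_range] at hp
    exact hp
  have hPM : ∀ p ∈ P, M ^ 2 < p := by
    intro p hp
    obtain ⟨-, -, -, h5⟩ := hPmem p hp
    have h6 : (M : ℝ) ^ 2 < p := by
      have h7 : (M : ℝ) ^ 2 ≤ (l ^ 2 / 2) ^ 2 := pow_le_pow_left₀ (Nat.cast_nonneg _) hMc 2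
      have h8 := Final_n3 l
      linarith
    exact_mod_cast h6
  have hPY : ∀ p ∈ P, p ≤ Y ^ 2 := by
    intro p hp
    obtain ⟨h5, -, -, -⟩ := hPmem p hp
    have h6 : p ≤ ⌊y⌋₊ := by omega
    have h7 : ⌊y⌋₊ ≤ Y := Nat.floor_le_ceil y
    have h8 : Y ≤ Y ^ 2 := Nat.le_self_pow (by norm_num) Y
    omega
  have hPprod : ∏ p ∈ P, p ≤ 2 * X + 1 := by
    have h5 : ∏ p ∈ P, p ≤ 4 ^ ⌊y⌋₊ := by
      refine le_trans ?_ (primorial_le_four_pow ⌊y⌋₊)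
      unfold primorial
      refine Finset.prod_le_prod_of_subset_of_one_le' ?_ ?_
      · intro p hp
        obtain ⟨h5, h6, -, -⟩ := hPmem p hp
        rw [Finset.mem_filter, Finset.mem_range]
        exact ⟨h5, h6⟩
      · intro p hp _
        rw [Finset.mem_filter] at hp
        exact hp.2.one_lt.le
    have h6 : ((4 ^ ⌊y⌋₊ : ℕ) : ℝ) ≤ X := by
      push_cast
      rw [← Real.rpow_natCast]
      calc (4 : ℝ) ^ ((⌊y⌋₊ : ℕ) : ℝ) ≤ 4 ^ y :=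
            Real.rpow_le_rpow_of_exponent_le (by norm_num) (Nat.floor_le hy0)
        _ = X := by
            rw [Real.rpow_def_of_pos (by norm_num), hy, mul_div_cancel₀ _ hlog40.ne', hexpL]
    have h7 : 4 ^ ⌊y⌋₊ ≤ X := by exact_mod_cast h6
    omega
  have hmain := union hD B hB n₁ X Y M hn1d hMa P (fun p hp => ⟨(hPmem p hp).2.1, (hPmem p hp).2.2.1⟩)
    hPM hPY hPprod
  have hsum : β + 4 ≤ ∑ p ∈ P, 1 / (p : ℝ) := hy₀ y hyy
  have hmono : ((starts D n X).ncard : ℝ) ≤ ((starts D n₁ X).ncard : ℝ) := by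
    exact_mod_cast Set.ncard_le_ncard (Final_mono hn1c) (Final_fin D n₁ X)
  refine hmono.trans (hmain.trans ?_)
  have hbn : (B.card : ℝ) ^ n₁ = Real.exp (n₁ * β) := by
    rw [Real.exp_nat_mul, hβ, Real.exp_log (by linarith)]
  have hn0 : (0 : ℝ) ≤ n₁ := Nat.cast_nonneg _
  have hT1 := Final_T1 (Y := Y) (M := M) hexpL hX0 hl12 hlβ (hl2.trans hlL) h4 hβ0 hn1b hbn
    (by linarith) hMc (Nat.cast_nonneg _) (Nat.cast_nonneg _)
  have hT2 := Final_T2 hX1 hl12 hn1a hbn hsum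
  rw [mul_add]
  linarith

end Vale.Agent.P015S
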