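import Mathlib

/-!
# P015: the graph `G_D` on the Gaussian primes
-/

namespace Vale.Agent.P015S

/-- the graph `G_D`: its vertices are all Gaussian primes, and two distinct Gaussian primes are
joined when their Euclidean distance is at most `D` -/
def moatGraph (D : ℝ) : SimpleGraph {z : GaussianInt // Prime z} where
  Adj z w := z ≠ w ∧ ‖GaussianInt.toComplex (z.1 - w.1)‖ ≤ D
  symm := ⟨fun z w h => by
    refine ⟨h.1.symm, ?_⟩
    have e : w.1 - z.1 = -(z.1 - w.1) := by ring
    rw [e, map_neg, norm_neg]
    exact h.2⟩
  loopless := ⟨fun z h => h.1 rfl⟩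

/-- the (finite) set of the Gaussian primes of absolute value at most `X` -/
def ball (X : ℕ) : Set {z : GaussianInt // Prime z} := {z | ‖GaussianInt.toComplex z.1‖ ≤ X}

end Vale.Agent.P015S
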