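import Vale.Agent.Lib.P015S.Graph
import Vale.Agent.Lib.P015S.Final

/-!
# P015S: the statement of the hand-in
-/

namespace Vale.Agent.P015S

theorem norm_toC (z : GaussianInt) : ‖GaussianInt.toComplex z‖ ^ 2 = (z.norm : ℝ) := by
  rw [Complex.sq_norm]
  exact (GaussianInt.intCast_real_norm z).symm

theorem abs_le_of_ball {X : ℕ} {z : GaussianInt} (hz : ‖GaussianInt.toComplex z‖ ≤ X) :
    |z.re| ≤ X ∧ |z.im| ≤ X := by
  have h1 : (z.norm : ℝ) ≤ (X : ℝ) ^ 2 := by
    rw [← norm_toC]
    exact pow_le_pow_left₀ (norm_nonneg _) hz 2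
  have h2 : z.norm ≤ (X : ℤ) ^ 2 := by exact_mod_cast h1
  rw [Zsqrtd.norm_def] at h2
  constructor
  · apply abs_le_of_sq_le_sq _ (by positivity)
    nlinarith [mul_self_nonneg z.im]
  · apply abs_le_of_sq_le_sq _ (by positivity)
    nlinarith [mul_self_nonneg z.re]

theorem square_finite (X : ℕ) : {w : GaussianInt | |w.re| ≤ X ∧ |w.im| ≤ X}.Finite := by
  have h : Set.Finite (Set.Icc (-(X : ℤ)) X ×ˢ Set.Icc (-(X : ℤ)) X) :=
    (Set.finite_Icc _ _).prod (Set.finite_Icc _ _)
  refine (h.image fun q : ℤ × ℤ => (⟨q.1, q.2⟩ : GaussianInt)).subset ?_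
  rintro w ⟨h1, h2⟩
  exact ⟨(w.re, w.im), ⟨abs_le.1 h1, abs_le.1 h2⟩, rfl⟩

theorem starts_finite (D : ℝ) (n X : ℕ) : (starts D n X).Finite :=
  (square_finite X).subset fun _ hw => ⟨hw.1, hw.2.1⟩

/-- a path with at least `n` steps gives a start -/
theorem starts_of_path {D D' : ℝ} (hD : D ≤ D') (_hD' : 0 ≤ D') {n X : ℕ}
    {z w : {z : GaussianInt // Prime z}} (p : (moatGraph D).Walk z w) (hp : p.IsPath)
    (hn : n ≤ p.length) (hz : ‖GaussianInt.toComplex z.1‖ ≤ X) : z.1 ∈ starts D' n X := by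
  refine ⟨(abs_le_of_ball hz).1, (abs_le_of_ball hz).2, fun j => (p.getVert j).1, ?_, ?_, ?_, ?_⟩
  · simp
  · intro j _
    exact (p.getVert j).2
  · intro j hj
    have h1 : (moatGraph D).Adj (p.getVert j) (p.getVert (j + 1)) :=
      p.adj_getVert_succ (by omega)
    have h2 : ‖GaussianInt.toComplex ((p.getVert (j + 1)).1 - (p.getVert j).1)‖ ≤ D' :=
      h1.symm.2.trans hD
    rw [← norm_toC]
    exact pow_le_pow_left₀ (norm_nonneg _) h2 2
  · intro i hi j hj hij
    have hi' : i < n := hi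
    have hj' : j < n := hj
    have h3 : p.getVert i = p.getVert j := Subtype.ext hij
    exact hp.getVert_injOn (by simp; omega) (by simp; omega) h3

/-- all vertices reached by a walk are at bounded distance -/
theorem walk_dist {D : ℝ} {z w : {z : GaussianInt // Prime z}} (p : (moatGraph D).Walk z w) :
    ‖GaussianInt.toComplex (z.1 - w.1)‖ ≤ p.length * D := by
  induction p with
  | nil => simp
  | @cons u v w h p ih =>
    have e : u.1 - w.1 = (u.1 - v.1) + (v.1 - w.1) := by ring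
    rw [e, map_add]
    refine (norm_add_le _ _).trans ?_
    rw [SimpleGraph.Walk.length_cons]
    push_cast
    have := h.2
    linarith

theorem near_finite (z : {z : GaussianInt // Prime z}) (R : ℕ) :
    {w : {z : GaussianInt // Prime z} | ‖GaussianInt.toComplex (z.1 - w.1)‖ ≤ R}.Finite := by
  have h := (square_finite R).preimage (f := fun w : {z : GaussianInt // Prime z} => z.1 - w.1)
    (fun a _ b _ hab => Subtype.ext (by simpa using hab))
  refine h.subset fun w hw => abs_le_of_ball hw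

/-- infinite components contain arbitrarily long paths from every vertex -/
theorem long_path {D : ℝ} {C : (moatGraph D).ConnectedComponent} (hC : C.supp.Infinite)
    {z : {z : GaussianInt // Prime z}} (hz : z ∈ C.supp) (n : ℕ) :
    ∃ (w : _) (p : (moatGraph D).Walk z w), p.IsPath ∧ n ≤ p.length := by
  by_contra hcon
  push Not at hcon
  refine hC ((near_finite z ⌈(n : ℝ) * |D|⌉₊).subset fun w hw => ?_)
  have hr : (moatGraph D).Reachable z w := by
    rw [SimpleGraph.ConnectedComponent.mem_supp_iff] at hz hw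
    exact SimpleGraph.ConnectedComponent.exact (hz.trans hw.symm)
  obtain ⟨p, hp⟩ := hr.exists_isPath
  have h1 := hcon w p hp
  refine (walk_dist p).trans ?_
  refine le_trans ?_ (Nat.le_ceil _)
  have h2 : (p.length : ℝ) ≤ n := by exact_mod_cast h1.le
  calc (p.length : ℝ) * D ≤ p.length * |D| := by
        have := le_abs_self D
        gcongr
    _ ≤ n * |D| := by gcongr

theorem main (D : ℝ) : ∃ ε : ℝ, 0 < ε ∧ ∃ X₀ : ℕ, ∀ X : ℕ, X₀ ≤ X →
    (({z ∈ ball X | ∃ (w : _) (p : (moatGraph D).Walk z w), p.IsPath ∧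
      Real.log X ^ ε ≤ p.length}.ncard : ℝ) ≤ (X : ℝ) ^ 2 * Real.exp (-(Real.log X ^ ε))) ∧
    ({z ∈ ball X | ((moatGraph D).connectedComponentMk z).supp.Infinite}.ncard : ℝ) ≤
      (X : ℝ) ^ 2 * Real.exp (-(Real.log X ^ ε)) := by
  obtain ⟨ε, hε, X₀, hf⟩ := final (D := max D 1) (le_max_right _ _)
  refine ⟨ε, hε, X₀, fun X hX => ?_⟩
  set n := ⌈Real.log X ^ ε⌉₊ with hn
  have h0 := hf X hX n (Nat.le_ceil _)
  have hsub : ∀ z : {z : GaussianInt // Prime z}, z ∈ ball X →
      (∃ (w : _) (p : (moatGraph D).Walk z w), p.IsPath ∧ Real.log X ^ ε ≤ p.length) →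
      z.1 ∈ starts (max D 1) n X := by
    rintro z hz ⟨w, p, hp, hl⟩
    exact starts_of_path (le_max_left _ _) (by positivity) p hp (Nat.ceil_le.2 hl) hz
  have h1 : ({z ∈ ball X | ∃ (w : _) (p : (moatGraph D).Walk z w), p.IsPath ∧
      Real.log X ^ ε ≤ p.length}.ncard : ℝ) ≤ ((starts (max D 1) n X).ncard : ℝ) := by
    have h2 : (Subtype.val '' {z ∈ ball X | ∃ (w : _) (p : (moatGraph D).Walk z w), p.IsPath ∧
      Real.log X ^ ε ≤ p.length}).ncard ≤ (starts (max D 1) n X).ncard := by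
      refine Set.ncard_le_ncard ?_ (starts_finite _ _ _)
      rintro _ ⟨z, ⟨hz, hp⟩, rfl⟩
      exact hsub z hz hp
    rw [Set.ncard_image_of_injective _ Subtype.val_injective] at h2
    exact_mod_cast h2
  refine ⟨h1.trans h0, le_trans ?_ (h1.trans h0)⟩
  have h3 : {z ∈ ball X | ((moatGraph D).connectedComponentMk z).supp.Infinite}.ncard ≤
      {z ∈ ball X | ∃ (w : _) (p : (moatGraph D).Walk z w),
      p.IsPath ∧ Real.log X ^ ε ≤ p.length}.ncard := by
    refine Set.ncard_le_ncard ?_ ?_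
    · rintro z ⟨hb, hC⟩
      have hz : z ∈ ((moatGraph D).connectedComponentMk z).supp :=
        (SimpleGraph.ConnectedComponent.mem_supp_iff _ _).2 rfl
      obtain ⟨w, p, hp, hl⟩ := long_path hC hz n
      exact ⟨hb, w, p, hp, (Nat.le_ceil _).trans (by exact_mod_cast hl)⟩
    · have h4 := (square_finite X).preimage
        (f := fun w : {z : GaussianInt // Prime z} => w.1) (fun a _ b _ hab => Subtype.ext hab)
      exact h4.subset fun z hz => abs_le_of_ball hz.1
  exact_mod_cast h3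

end Vale.Agent.P015S
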